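import Vale.Agent.P235.Comp.Defs
import Vale.Agent.P235.Bdl.B1
import Mathlib.MeasureTheory.Measure.Lebesgue.Basic

section

namespace Vale.Agent.P235

theorem IsL1.comap {V : Type} {F : V → V → ℝ} {W : Type} (hF : IsL1 F) (φ : W → V) :
    IsL1 (fun x y => F (φ x) (φ y)) := by
  obtain ⟨ι, _, w, c, hw, hF⟩ := hF
  exact ⟨ι, inferInstance, w, fun i x => c i (φ x), hw, fun x y => hF _ _⟩

variable {V : Type} {G : SimpleGraph V} {X : Set V} {ℓ : Sym2 V → ℝ}

theorem ReachOff.refl {u : V} (hu : u ∉ X) : ReachOff G X u u :=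
  ⟨SimpleGraph.Walk.nil, by simpa using hu⟩

theorem ReachOff.left {u v : V} (h : ReachOff G X u v) : u ∉ X := by
  obtain ⟨p, hp⟩ := h
  exact hp u p.start_mem_support

theorem ReachOff.right {u v : V} (h : ReachOff G X u v) : v ∉ X := by
  obtain ⟨p, hp⟩ := h
  exact hp v p.end_mem_support

theorem ReachOff.symm {u v : V} (h : ReachOff G X u v) : ReachOff G X v u := by
  obtain ⟨p, hp⟩ := h
  exact ⟨p.reverse, by simpa using hp⟩

theorem ReachOff.trans {u v w : V} (h : ReachOff G X u v) (h' : ReachOff G X v w) :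
    ReachOff G X u w := by
  obtain ⟨p, hp⟩ := h
  obtain ⟨q, hq⟩ := h'
  refine ⟨p.append q, fun a ha => ?_⟩
  rw [SimpleGraph.Walk.mem_support_append_iff] at ha
  exact ha.elim (hp a) (hq a)

theorem ReachOff.adj {u v : V} (hu : u ∉ X) (hv : v ∉ X) (h : G.Adj u v) : ReachOff G X u v :=
  ⟨h.toWalk, by simp [hu, hv]⟩

theorem attach_congr {u v : V} (h : ReachOff G X u v) : attach G X u = attach G X v := by
  ext x
  constructor
  · rintro ⟨hx, w, hw, hwx⟩
    exact ⟨hx, w, h.symm.trans hw, hwx⟩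
  · rintro ⟨hx, w, hw, hwx⟩
    exact ⟨hx, w, h.trans hw, hwx⟩

theorem mem_attach_of_adj {u x : V} (hu : u ∉ X) (hx : x ∈ X) (h : G.Adj u x) :
    x ∈ attach G X u := ⟨hx, u, ReachOff.refl hu, h⟩

/-- every walk from `u ∉ X` to `X` meets an attachment first -/
theorem exists_attach_walk [Finite V] (hc : G.Connected) (hℓ : ∀ e ∈ G.edgeSet, 0 < ℓ e)
    {y : V} (hy : y ∈ X) : ∀ {u : V} (p : G.Walk u y), u ∉ X →
      ∃ x ∈ attach G X u, pathDist G ℓ u x ≤ (p.edges.map ℓ).sum := by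
  intro u p
  have hd := pathDist_isMet hc hℓ
  induction p with
  | nil => intro h; exact absurd hy h
  | @cons u a y h p ih =>
    intro hu
    rw [SimpleGraph.Walk.edges_cons, List.map_cons, List.sum_cons]
    have hadj := pathDist_adj hℓ h
    by_cases ha : a ∈ X
    · refine ⟨a, mem_attach_of_adj hu ha h, hadj.trans ?_⟩
      linarith [walk_nonneg hℓ p]
    · obtain ⟨x, hx, hle⟩ := ih hy ha
      rw [← attach_congr (ReachOff.adj hu ha h)] at hx
      exact ⟨x, hx, by linarith [hd.tri u a x]⟩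

theorem exists_nearest [Finite V] (hc : G.Connected) (hℓ : ∀ e ∈ G.edgeSet, 0 < ℓ e)
    (hX : X.Nonempty) {u : V} (hu : u ∉ X) :
    ∃ x ∈ attach G X u, ∀ y ∈ X, pathDist G ℓ u x ≤ pathDist G ℓ u y := by
  have hne : (attach G X u).Nonempty := by
    obtain ⟨y, hy⟩ := hX
    obtain ⟨p⟩ := hc u y
    obtain ⟨x, hx, _⟩ := exists_attach_walk hc hℓ hy p hu
    exact ⟨x, hx⟩
  obtain ⟨x, hx, hmin⟩ := Set.exists_min_image (attach G X u) (fun x => pathDist G ℓ u x)
    (Set.toFinite _) hne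
  refine ⟨x, hx, fun y hy => ?_⟩
  have : Nonempty (G.Walk u y) := hc u y
  refine le_ciInf fun p => ?_
  obtain ⟨x', hx', hle⟩ := exists_attach_walk hc hℓ hy p hu
  exact (hmin x' hx').trans hle

/-- lengths on the torso -/
noncomputable def torsoLen (d : V → V → ℝ) (X : Set V) : Sym2 X → ℝ :=
  fun e => ⨅ p : {p : X × X // s(p.1, p.2) = e}, d p.1.1.1 p.1.2.1

theorem torsoLen_mk {d : V → V → ℝ} (hs : ∀ x y, d x y = d y x) (x y : X) :
    torsoLen d X s(x, y) = d x y := by
  unfold torsoLen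
  have : Nonempty {p : X × X // s(p.1, p.2) = s(x, y)} := ⟨⟨(x, y), rfl⟩⟩
  have h : ∀ p : {p : X × X // s(p.1, p.2) = s(x, y)}, d p.1.1.1 p.1.2.1 = d x y := by
    rintro ⟨⟨a, b⟩, hab⟩
    simp only [Sym2.eq_iff] at hab
    rcases hab with ⟨rfl, rfl⟩ | ⟨rfl, rfl⟩
    · rfl
    · exact hs _ _
  simp [h]

theorem torso_walk [Finite V] (hc : G.Connected) (hℓ : ∀ e ∈ G.edgeSet, 0 < ℓ e)
    {y : V} (hy : y ∈ X) : ∀ {a : V} (p : G.Walk a y),
      (∀ ha : a ∈ X, ∃ w : (torso G X).Walk ⟨a, ha⟩ ⟨y, hy⟩,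
        (w.edges.map (torsoLen (pathDist G ℓ) X)).sum ≤ (p.edges.map ℓ).sum) ∧
      (a ∉ X → ∀ (x : V) (hx : x ∈ attach G X a), ∃ w : (torso G X).Walk ⟨x, hx.1⟩ ⟨y, hy⟩,
        (w.edges.map (torsoLen (pathDist G ℓ) X)).sum ≤
          pathDist G ℓ x a + (p.edges.map ℓ).sum) := by
  intro a p
  have hd := pathDist_isMet hc hℓ
  induction p with
  | nil =>
    refine ⟨fun ha => ⟨SimpleGraph.Walk.nil, by simp⟩, fun h => absurd hy h⟩
  | @cons a b y h p ih =>
    specialize ih hy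
    rw [SimpleGraph.Walk.edges_cons, List.map_cons, List.sum_cons]
    have hadj := pathDist_adj hℓ h
    constructor
    · intro ha
      by_cases hb : b ∈ X
      · obtain ⟨w, hw⟩ := ih.1 hb
        have hT : (torso G X).Adj ⟨a, ha⟩ ⟨b, hb⟩ :=
          ⟨fun e => h.ne (congrArg Subtype.val e), Or.inl h⟩
        refine ⟨SimpleGraph.Walk.cons hT w, ?_⟩
        rw [SimpleGraph.Walk.edges_cons, List.map_cons, List.sum_cons, torsoLen_mk hd.symm]
        show pathDist G ℓ a b + _ ≤ _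
        linarith
      · obtain ⟨w, hw⟩ := ih.2 hb a (mem_attach_of_adj hb ha h.symm)
        exact ⟨w, by linarith⟩
    · intro ha x hx
      by_cases hb : b ∈ X
      · obtain ⟨w, hw⟩ := ih.1 hb
        have htri := hd.tri x a b
        by_cases hxb : x = b
        · subst hxb
          refine ⟨w, ?_⟩
          linarith [hd.nonneg x a, hℓ _ (G.mem_edgeSet.mpr h)]
        · have hT : (torso G X).Adj ⟨x, hx.1⟩ ⟨b, hb⟩ :=
            ⟨fun e => hxb (congrArg Subtype.val e),
              Or.inr ⟨a, hx, mem_attach_of_adj ha hb h⟩⟩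
          refine ⟨SimpleGraph.Walk.cons hT w, ?_⟩
          rw [SimpleGraph.Walk.edges_cons, List.map_cons, List.sum_cons, torsoLen_mk hd.symm]
          show pathDist G ℓ x b + _ ≤ _
          linarith
      · have hx' := hx
        rw [attach_congr (ReachOff.adj ha hb h)] at hx'
        obtain ⟨w, hw⟩ := ih.2 hb x hx'
        exact ⟨w, by linarith [hd.tri x a b]⟩

theorem torso_connected [Finite V] (hc : G.Connected) (hX : X.Nonempty) :
    (torso G X).Connected := by
  obtain ⟨x0, hx0⟩ := hX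
  have : Nonempty X := ⟨⟨x0, hx0⟩⟩
  rw [SimpleGraph.connected_iff]
  refine ⟨?_, this⟩
  rintro ⟨x, hx⟩ ⟨y, hy⟩
  obtain ⟨p⟩ := hc x y
  obtain ⟨w, _⟩ := (torso_walk (ℓ := fun _ => 1) hc (fun _ _ => one_pos) hy p).1 hx
  exact ⟨w⟩

theorem torso_dist [Finite V] (hc : G.Connected) (hℓ : ∀ e ∈ G.edgeSet, 0 < ℓ e)
    (hX : X.Nonempty) (x y : X) :
    pathDist (torso G X) (torsoLen (pathDist G ℓ) X) x y = pathDist G ℓ x y := by
  have hd := pathDist_isMet hc hℓ
  have hpos : ∀ e ∈ (torso G X).edgeSet, 0 < torsoLen (pathDist G ℓ) X e := by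
    intro e
    induction e using Sym2.inductionOn with
    | hf a b =>
      intro he
      rw [torsoLen_mk hd.symm]
      exact hd.pos _ _ fun e => (SimpleGraph.mem_edgeSet _ |>.mp he).1 (Subtype.ext e)
  apply le_antisymm
  · have : Nonempty (G.Walk x.1 y.1) := hc _ _
    refine le_ciInf fun p => ?_
    obtain ⟨w, hw⟩ := (torso_walk hc hℓ y.2 p).1 x.2
    exact (pathDist_le hpos w).trans hw
  · have h := pathDist_gen (ℓ := torsoLen (pathDist G ℓ) X) (torso_connected hc hX)
      (f := fun z : X => pathDist G ℓ x z) (fun u v _ => by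
        rw [torsoLen_mk hd.symm, abs_le]
        constructor
        · have := hd.tri x u v
          linarith
        · have := hd.tri x v u
          rw [hd.symm v u] at this
          linarith) x y
    simp only [hd.self, zero_sub, abs_neg] at h
    exact (le_abs_self _).trans h

end Vale.Agent.P235

end

section

namespace Vale.Agent.P235

variable {V : Type} {G : SimpleGraph V} {X : Set V} {ℓ : Sym2 V → ℝ}

/-- a nearest point map to `X` -/
structure Near (G : SimpleGraph V) (ℓ : Sym2 V → ℝ) (X : Set V) (ν : V → V) : Prop where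
  mem : ∀ u, ν u ∈ X
  self : ∀ u ∈ X, ν u = u
  att : ∀ u, u ∉ X → ν u ∈ attach G X u
  le : ∀ u, ∀ y ∈ X, pathDist G ℓ u (ν u) ≤ pathDist G ℓ u y

theorem exists_near [Finite V] (hc : G.Connected) (hℓ : ∀ e ∈ G.edgeSet, 0 < ℓ e)
    (hX : X.Nonempty) : ∃ ν, Near G ℓ X ν := by
  classical
  have hd := pathDist_isMet hc hℓ
  have h : ∀ u, ∃ x, x ∈ X ∧ (u ∈ X → x = u) ∧ (u ∉ X → x ∈ attach G X u) ∧
      ∀ y ∈ X, pathDist G ℓ u x ≤ pathDist G ℓ u y := by
    intro u
    by_cases hu : u ∈ X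
    · refine ⟨u, hu, fun _ => rfl, fun h => absurd hu h, fun y _ => ?_⟩
      rw [hd.self]; exact hd.nonneg _ _
    · obtain ⟨x, hx, hmin⟩ := exists_nearest hc hℓ hX hu
      exact ⟨x, hx.1, fun h => absurd h hu, fun _ => hx, hmin⟩
  choose ν h1 h2 h3 h4 using h
  exact ⟨ν, h1, h2, h3, h4⟩

namespace Near

variable {ν : V → V}

theorem lip [Finite V] (hν : Near G ℓ X ν) (hc : G.Connected) (hℓ : ∀ e ∈ G.edgeSet, 0 < ℓ e)
    (u v : V) : pathDist G ℓ u (ν u) ≤ pathDist G ℓ u v + pathDist G ℓ v (ν v) :=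
  (hν.le u (ν v) (hν.mem v)).trans ((pathDist_isMet hc hℓ).tri _ _ _)

end Near

end Vale.Agent.P235

end

section

namespace Vale.Agent.P235

open MeasureTheory

/-- `ρ` is the semimetric of a map into some real `L₁(μ)`. -/
def L1S {V : Type} (ρ : V → V → ℝ) : Prop :=
  ∃ (Ω : Type) (_ : MeasurableSpace Ω) (μ : Measure Ω) (f : V → Lp ℝ 1 μ),
    ∀ x y, ρ x y = ‖f x - f y‖

theorem norm_sub_eq {Ω : Type} [MeasurableSpace Ω] {μ : Measure Ω} (f g : Lp ℝ 1 μ) :
    ‖f - g‖ = (∫⁻ a, ‖(f a - g a : ℝ)‖ₑ ∂μ).toReal := by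
  rw [Lp.norm_def, eLpNorm_congr_ae (Lp.coeFn_sub f g), eLpNorm_one_eq_lintegral_enorm]
  rfl

theorem lintegral_sumElim {Ω Ω' : Type} [MeasurableSpace Ω] [MeasurableSpace Ω'] {μ : Measure Ω}
    {μ' : Measure Ω'} {a : Ω → ℝ} {b : Ω' → ℝ} (ha : Measurable a) (hb : Measurable b) :
    ∫⁻ z, ‖Sum.elim a b z‖ₑ ∂(μ.map Sum.inl + μ'.map Sum.inr) =
      ∫⁻ z, ‖a z‖ₑ ∂μ + ∫⁻ z, ‖b z‖ₑ ∂μ' := by
  have hm : Measurable fun z => ‖Sum.elim a b z‖ₑ := (Measurable.sumElim ha hb).enorm
  rw [lintegral_add_measure, lintegral_map hm measurable_inl, lintegral_map hm measurable_inr]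
  rfl

theorem lintegral_ne_top {Ω : Type} [MeasurableSpace Ω] {μ : Measure Ω} (f : Lp ℝ 1 μ) :
    ∫⁻ z, ‖f z‖ₑ ∂μ ≠ ⊤ := by
  have h := Lp.eLpNorm_ne_top f
  rwa [eLpNorm_one_eq_lintegral_enorm] at h

theorem L1S.add {V : Type} {ρ σ : V → V → ℝ} (hρ : L1S ρ) (hσ : L1S σ) :
    L1S (fun x y => ρ x y + σ x y) := by
  obtain ⟨Ω, _, μ, f, hf⟩ := hρ
  obtain ⟨Ω', _, μ', g, hg⟩ := hσ
  have hfm : ∀ x, Measurable (f x) := fun x => (Lp.stronglyMeasurable (f x)).measurable
  have hgm : ∀ x, Measurable (g x) := fun x => (Lp.stronglyMeasurable (g x)).measurable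
  have hmem : ∀ x, MemLp (Sum.elim (f x) (g x)) 1 (μ.map Sum.inl + μ'.map Sum.inr) := by
    intro x
    refine ⟨((hfm x).sumElim (hgm x)).aestronglyMeasurable, ?_⟩
    rw [eLpNorm_one_eq_lintegral_enorm, lintegral_sumElim (hfm x) (hgm x)]
    exact ENNReal.add_lt_top.mpr ⟨(lintegral_ne_top _).lt_top, (lintegral_ne_top _).lt_top⟩
  refine ⟨Ω ⊕ Ω', inferInstance, μ.map Sum.inl + μ'.map Sum.inr,
    fun x => (hmem x).toLp _, fun x y => ?_⟩
  beta_reduce
  rw [hf, hg, ← MemLp.toLp_sub, Lp.norm_toLp, eLpNorm_one_eq_lintegral_enorm, norm_sub_eq,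
    norm_sub_eq]
  have hsub : (Sum.elim (f x) (g x) - Sum.elim (f y) (g y) : Ω ⊕ Ω' → ℝ) =
      Sum.elim (fun z => f x z - f y z) (fun z => g x z - g y z) := by
    funext z
    rcases z with z | z <;> rfl
  have hlin := lintegral_sumElim (μ := μ) (μ' := μ') (a := fun z => f x z - f y z)
    (b := fun z => g x z - g y z) ((hfm x).sub (hfm y)) ((hgm x).sub (hgm y))
  rw [hsub, hlin, ENNReal.toReal_add]
  · have h := lintegral_ne_top (f x - f y)
    rwa [← eLpNorm_one_eq_lintegral_enorm, eLpNorm_congr_ae (Lp.coeFn_sub _ _),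
      eLpNorm_one_eq_lintegral_enorm] at h
  · have h := lintegral_ne_top (g x - g y)
    rwa [← eLpNorm_one_eq_lintegral_enorm, eLpNorm_congr_ae (Lp.coeFn_sub _ _),
      eLpNorm_one_eq_lintegral_enorm] at h

theorem L1S.smul {V : Type} {ρ : V → V → ℝ} (hρ : L1S ρ) {a : ℝ} (ha : 0 ≤ a) :
    L1S (fun x y => a * ρ x y) := by
  obtain ⟨Ω, _, μ, f, hf⟩ := hρ
  refine ⟨Ω, inferInstance, μ, fun x => a • f x, fun x y => ?_⟩
  beta_reduce
  rw [hf, ← smul_sub, norm_smul, Real.norm_of_nonneg ha]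

theorem L1S.comap {V W : Type} {ρ : V → V → ℝ} (hρ : L1S ρ) (φ : W → V) :
    L1S (fun x y => ρ (φ x) (φ y)) := by
  obtain ⟨Ω, _, μ, f, hf⟩ := hρ
  exact ⟨Ω, inferInstance, μ, fun x => f (φ x), fun x y => hf _ _⟩

theorem L1S.zero {V : Type} : L1S (fun _ _ : V => (0 : ℝ)) :=
  ⟨Unit, inferInstance, 0, fun _ => 0, fun _ _ => by simp⟩

theorem L1S.congr {V : Type} {ρ σ : V → V → ℝ} (hρ : L1S ρ) (h : ∀ x y, σ x y = ρ x y) :
    L1S σ := by
  have : σ = ρ := by funext x y; exact h x y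
  rw [this]; exact hρ

theorem L1S.sum {V ι : Type} (s : Finset ι) (ρ : ι → V → V → ℝ) (h : ∀ i ∈ s, L1S (ρ i)) :
    L1S (fun x y => ∑ i ∈ s, ρ i x y) := by
  classical
  induction s using Finset.induction_on with
  | empty => simpa using (L1S.zero : L1S (fun _ _ : V => (0 : ℝ)))
  | insert a s ha ih =>
    have h1 := h a (Finset.mem_insert_self a s)
    have h2 := ih (fun i hi => h i (Finset.mem_insert_of_mem hi))
    refine (h1.add h2).congr ?_
    intro x y
    rw [Finset.sum_insert ha]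

theorem L1S.embeds {V : Type} {ρ d : V → V → ℝ} {C : ℝ} (hρ : L1S ρ)
    (h1 : ∀ x y, d x y ≤ ρ x y) (h2 : ∀ x y, ρ x y ≤ C * d x y) : EmbedsL1 d C := by
  obtain ⟨Ω, _, μ, f, hf⟩ := hρ
  refine ⟨Ω, inferInstance, μ, f, fun x y => ?_⟩
  rw [← hf]
  exact ⟨h1 x y, h2 x y⟩

end Vale.Agent.P235

end

section

namespace Vale.Agent.P235

open MeasureTheory

section

variable {V : Type} [Finite V]

/-- the set of levels at which the real function `a` induces the cut `S` -/
def lev (a : V → ℝ) (S : V → Bool) : Set ℝ := {t | ∀ z, (t < a z) ↔ S z = true}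

theorem measurableSet_lev (a : V → ℝ) (S : V → Bool) : MeasurableSet (lev a S) := by
  have : lev a S = ⋂ z, {t | (t < a z) ↔ S z = true} := by
    ext t; simp [lev]
  rw [this]
  refine MeasurableSet.iInter fun z => ?_
  have hm : MeasurableSet {t : ℝ | t < a z} := measurableSet_Iio
  by_cases h : S z = true
  · simpa only [h, iff_true] using hm
  · have e : {t : ℝ | (t < a z) ↔ S z = true} = {t : ℝ | t < a z}ᶜ := by
      ext t; simp [h]
    rw [e]; exact hm.compl

theorem lev_disjoint (a : V → ℝ) {S S' : V → Bool} (h : S ≠ S') :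
    Disjoint (lev a S) (lev a S') := by
  rw [Set.disjoint_left]
  intro t ht ht'
  apply h
  funext z
  have h1 := (ht z).symm.trans (ht' z)
  exact Bool.eq_iff_iff.mpr h1

open Classical in
theorem line_cut [Fintype (V → Bool)] (a : V → ℝ) (x y : V) :
    ‖a x - a y‖ₑ = ∑ S : V → Bool, (if S x = S y then 0 else 1) * volume (lev a S) := by
  have main : ∀ x y, a x ≤ a y → ‖a x - a y‖ₑ =
      ∑ S : V → Bool, (if S x = S y then 0 else 1) * volume (lev a S) := by
    intro x y hxy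
    have h1 : ‖a x - a y‖ₑ = volume (Set.Ico (a x) (a y)) := by
      rw [Real.volume_Ico, Real.enorm_eq_ofReal_abs, abs_sub_comm, abs_of_nonneg (by linarith)]
    have h2 : Set.Ico (a x) (a y) =
        ⋃ S ∈ (Finset.univ.filter fun S : V → Bool => S x ≠ S y), lev a S := by
      ext t
      simp only [Set.mem_Ico, Set.mem_iUnion, Finset.mem_filter, Finset.mem_univ, true_and,
        exists_prop]
      constructor
      · rintro ⟨h1, h2⟩
        refine ⟨fun z => decide (t < a z), ?_, fun z => by simp⟩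
        simp [not_lt.mpr h1, h2]
      · rintro ⟨S, hS, ht⟩
        have hx := ht x
        have hy := ht y
        by_contra hcon
        rw [not_and_or, not_le, not_lt] at hcon
        apply hS
        rcases hcon with h | h
        · have h3 : t < a y := h.trans_le hxy
          rw [hx.mp h, hy.mp h3]
        · have h3 : ¬ t < a y := not_lt.mpr h
          have h4 : ¬ t < a x := fun h' => h3 (h'.trans_le hxy)
          have h5 : S x = false := by
            rw [← Bool.not_eq_true]; exact fun h => h4 (hx.mpr h)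
          have h6 : S y = false := by
            rw [← Bool.not_eq_true]; exact fun h => h3 (hy.mpr h)
          rw [h5, h6]
    rw [h1, h2, measure_biUnion_finset (fun S _ S' _ h => lev_disjoint a h)
      (fun S _ => measurableSet_lev a S), Finset.sum_filter]
    refine Finset.sum_congr rfl fun S _ => ?_
    by_cases h : S x = S y <;> simp [h]
  rcases le_total (a x) (a y) with h | h
  · exact main x y h
  · have h1 := main y x h
    rw [← enorm_neg, neg_sub, h1]
    refine Finset.sum_congr rfl fun S _ => ?_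
    simp only [eq_comm]

/-- Every finite `L₁` semimetric is a finite combination of cut semimetrics. -/
theorem L1S.isL1 {ρ : V → V → ℝ} (h : L1S ρ) : IsL1 ρ := by
  classical
  have : Fintype V := Fintype.ofFinite V
  obtain ⟨Ω, _, μ, f, hf⟩ := h
  have hfm : ∀ x, Measurable (f x) := fun x => (Lp.stronglyMeasurable (f x)).measurable
  have hset : ∀ S : V → Bool, MeasurableSet {p : Ω × ℝ | ∀ z, (p.2 < f z p.1) ↔ S z = true} := by
    intro S
    have : {p : Ω × ℝ | ∀ z, (p.2 < f z p.1) ↔ S z = true} =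
        ⋂ z, {p : Ω × ℝ | (p.2 < f z p.1) ↔ S z = true} := by
      ext p; simp
    rw [this]
    refine MeasurableSet.iInter fun z => ?_
    have hm : MeasurableSet {p : Ω × ℝ | p.2 < f z p.1} :=
      measurableSet_lt measurable_snd ((hfm z).comp measurable_fst)
    by_cases h : S z = true
    · simpa only [h, iff_true] using hm
    · have e : {p : Ω × ℝ | (p.2 < f z p.1) ↔ S z = true} = {p : Ω × ℝ | p.2 < f z p.1}ᶜ := by
        ext p; simp [h]
      rw [e]; exact hm.compl
  have hmeas : ∀ S : V → Bool, Measurable fun ω => volume (lev (fun z => f z ω) S) := fun S =>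
    measurable_measure_prodMk_left (hset S)
  have hlin : ∀ x y, ∫⁻ ω, ‖f x ω - f y ω‖ₑ ∂μ =
      ∑ S : V → Bool, (if S x = S y then 0 else 1) * ∫⁻ ω, volume (lev (fun z => f z ω) S) ∂μ := by
    intro x y
    have h1 : ∀ ω, ‖f x ω - f y ω‖ₑ =
        ∑ S : V → Bool, (if S x = S y then 0 else 1) * volume (lev (fun z => f z ω) S) :=
      fun ω => line_cut (fun z => f z ω) x y
    rw [lintegral_congr h1, lintegral_finsetSum _ fun S _ => (hmeas S).const_mul _]
    refine Finset.sum_congr rfl fun S _ => ?_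
    rw [lintegral_const_mul _ (hmeas S)]
  have hfin : ∀ x y, ∫⁻ ω, ‖f x ω - f y ω‖ₑ ∂μ ≠ ⊤ := by
    intro x y
    have h := lintegral_ne_top (f x - f y)
    rwa [← eLpNorm_one_eq_lintegral_enorm, eLpNorm_congr_ae (Lp.coeFn_sub _ _),
      eLpNorm_one_eq_lintegral_enorm] at h
  refine ⟨V → Bool, inferInstance,
    fun S => (∫⁻ ω, volume (lev (fun z => f z ω) S) ∂μ).toReal, fun S => S,
    fun S => ENNReal.toReal_nonneg, fun x y => ?_⟩
  have hne : ∀ S ∈ (Finset.univ : Finset (V → Bool)),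
      (if S x = S y then 0 else 1) * ∫⁻ ω, volume (lev (fun z => f z ω) S) ∂μ ≠ ⊤ := by
    intro S _
    have h1 : (if S x = S y then 0 else 1) * ∫⁻ ω, volume (lev (fun z => f z ω) S) ∂μ ≤
        ∫⁻ ω, ‖f x ω - f y ω‖ₑ ∂μ := by
      rw [hlin x y]
      exact Finset.single_le_sum
        (f := fun S : V → Bool =>
          (if S x = S y then 0 else 1) * ∫⁻ ω, volume (lev (fun z => f z ω) S) ∂μ)
        (fun _ _ => by positivity) (Finset.mem_univ S)
    exact ne_top_of_le_ne_top (hfin x y) h1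
  rw [hf, norm_sub_eq, hlin, ENNReal.toReal_sum hne]
  refine Finset.sum_congr rfl fun S _ => ?_
  by_cases h : S x = S y <;> simp [h]

end

end Vale.Agent.P235

end

section

namespace Vale.Agent.P235

open Finset

theorem avg_sub {E : Type} [NormedAddCommGroup E] [NormedSpace ℝ E] {α : Type} (s : Finset α)
    (a : α → ℝ) (y : α → E) (c : E) (hA : 0 < ∑ i ∈ s, a i) :
    (∑ i ∈ s, a i)⁻¹ • ∑ i ∈ s, a i • y i - c = (∑ i ∈ s, a i)⁻¹ • ∑ i ∈ s, a i • (y i - c) := by
  have : c = (∑ i ∈ s, a i)⁻¹ • ∑ i ∈ s, a i • c := by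
    rw [← Finset.sum_smul, smul_smul, inv_mul_cancel₀ hA.ne', one_smul]
  conv_lhs => rw [this]
  rw [← smul_sub, ← Finset.sum_sub_distrib]
  congr 1
  exact Finset.sum_congr rfl fun i _ => (smul_sub _ _ _).symm

theorem avg_bound {E : Type} [NormedAddCommGroup E] [NormedSpace ℝ E] {α : Type} (s : Finset α)
    (a : α → ℝ) (y : α → E) (R : ℝ) (ha : ∀ i ∈ s, 0 ≤ a i) (hA : 0 < ∑ i ∈ s, a i)
    (hy : ∀ i ∈ s, a i ≠ 0 → ‖y i‖ ≤ R) :
    ‖(∑ i ∈ s, a i)⁻¹ • ∑ i ∈ s, a i • y i‖ ≤ R := by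
  rw [norm_smul, Real.norm_of_nonneg (inv_nonneg.mpr hA.le), inv_mul_le_iff₀ hA, Finset.sum_mul]
  refine (norm_sum_le _ _).trans (Finset.sum_le_sum fun i hi => ?_)
  rw [norm_smul, Real.norm_of_nonneg (ha i hi)]
  by_cases h0 : a i = 0
  · simp [h0]
  · exact mul_le_mul_of_nonneg_left (hy i hi h0) (ha i hi)

theorem avg_diff {E : Type} [NormedAddCommGroup E] [NormedSpace ℝ E] {α : Type} (s : Finset α)
    (a b : α → ℝ) (y : α → E) (R : ℝ)
    (hb : ∀ i ∈ s, 0 ≤ b i) (hA : 0 < ∑ i ∈ s, a i) (hB : 0 < ∑ i ∈ s, b i)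
    (hy : ∀ i ∈ s, a i ≠ 0 ∨ b i ≠ 0 → ‖y i‖ ≤ R) :
    ‖(∑ i ∈ s, a i)⁻¹ • ∑ i ∈ s, a i • y i - (∑ i ∈ s, b i)⁻¹ • ∑ i ∈ s, b i • y i‖ ≤
      2 * R / (∑ i ∈ s, a i) * ∑ i ∈ s, |a i - b i| := by
  set A := ∑ i ∈ s, a i with hAdef
  set B := ∑ i ∈ s, b i with hBdef
  set D := ∑ i ∈ s, |a i - b i| with hDdef
  have hAB : |B - A| ≤ D := by
    rw [hAdef, hBdef, hDdef, ← Finset.sum_sub_distrib]
    refine (Finset.abs_sum_le_sum_abs _ _).trans (Finset.sum_le_sum fun i _ => ?_)
    rw [abs_sub_comm]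
  have hsplit : A⁻¹ • ∑ i ∈ s, a i • y i - B⁻¹ • ∑ i ∈ s, b i • y i =
      A⁻¹ • ∑ i ∈ s, (a i - b i) • y i + (A⁻¹ * (B - A)) • (B⁻¹ • ∑ i ∈ s, b i • y i) := by
    have h1 : ∑ i ∈ s, (a i - b i) • y i = ∑ i ∈ s, a i • y i - ∑ i ∈ s, b i • y i := by
      rw [← Finset.sum_sub_distrib]
      exact Finset.sum_congr rfl fun i _ => sub_smul _ _ _
    rw [h1, smul_sub, smul_smul]
    have h2 : A⁻¹ * (B - A) * B⁻¹ = A⁻¹ - B⁻¹ := by
      field_simp
    rw [h2, sub_smul]
    abel
  rw [hsplit]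
  have hb1 : ‖A⁻¹ • ∑ i ∈ s, (a i - b i) • y i‖ ≤ A⁻¹ * (R * D) := by
    rw [norm_smul, Real.norm_of_nonneg (inv_nonneg.mpr hA.le)]
    refine mul_le_mul_of_nonneg_left ?_ (inv_nonneg.mpr hA.le)
    rw [hDdef, Finset.mul_sum]
    refine (norm_sum_le _ _).trans (Finset.sum_le_sum fun i hi => ?_)
    rw [norm_smul, Real.norm_eq_abs, mul_comm]
    by_cases h0 : a i ≠ 0 ∨ b i ≠ 0
    · exact mul_le_mul_of_nonneg_right (hy i hi h0) (abs_nonneg _)
    · rw [not_or, not_not, not_not] at h0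
      simp [h0.1, h0.2]
  have hb2 : ‖(A⁻¹ * (B - A)) • (B⁻¹ • ∑ i ∈ s, b i • y i)‖ ≤ A⁻¹ * (R * D) := by
    rw [norm_smul, norm_mul, Real.norm_of_nonneg (inv_nonneg.mpr hA.le), Real.norm_eq_abs,
      mul_assoc]
    refine mul_le_mul_of_nonneg_left ?_ (inv_nonneg.mpr hA.le)
    have h3 := avg_bound s b y R hb hB fun i hi h => hy i hi (Or.inr h)
    rw [mul_comm R D]
    exact mul_le_mul hAB h3 (norm_nonneg _) ((abs_nonneg _).trans hAB)
  refine (norm_add_le _ _).trans ?_
  have h4 : 2 * R / A * D = A⁻¹ * (R * D) + A⁻¹ * (R * D) := by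
    field_simp; ring
  rw [h4]
  exact add_le_add hb1 hb2

section

variable {V : Type} [Finite V] {G : SimpleGraph V} {X : Set V} {ℓ : Sym2 V → ℝ} {ν : V → V}

/-- bump functions -/
noncomputable def bump (G : SimpleGraph V) (ℓ : Sym2 V → ℝ) (ν : V → V) (u x : V) : ℝ :=
  max 0 (2 * pathDist G ℓ u (ν u) - pathDist G ℓ u x)

/-- attachments as a finset -/
noncomputable def attachF (G : SimpleGraph V) (X : Set V) (u : V) : Finset V :=
  (Set.toFinite (attach G X u)).toFinset

theorem mem_attachF {u x : V} : x ∈ attachF G X u ↔ x ∈ attach G X u := by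
  simp [attachF]

open Classical in
/-- the extension of `f` from `X` -/
noncomputable def ext {E : Type} [NormedAddCommGroup E] [NormedSpace ℝ E] (G : SimpleGraph V)
    (ℓ : Sym2 V → ℝ) (X : Set V) (ν : V → V) (f : V → E) (u : V) : E :=
  if u ∈ X then f u else
    (∑ x ∈ attachF G X u, bump G ℓ ν u x)⁻¹ • ∑ x ∈ attachF G X u, bump G ℓ ν u x • f x

theorem bump_nonneg (u x : V) : 0 ≤ bump G ℓ ν u x := le_max_left _ _

theorem bump_sum_ge (hc : G.Connected) (hℓ : ∀ e ∈ G.edgeSet, 0 < ℓ e) (hν : Near G ℓ X ν)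
    {u : V} (hu : u ∉ X) :
    pathDist G ℓ u (ν u) ≤ ∑ x ∈ attachF G X u, bump G ℓ ν u x := by
  have h1 : bump G ℓ ν u (ν u) ≤ ∑ x ∈ attachF G X u, bump G ℓ ν u x :=
    Finset.single_le_sum (f := fun x => bump G ℓ ν u x) (fun i _ => bump_nonneg u i)
      (mem_attachF.mpr (hν.att u hu))
  refine le_trans ?_ h1
  unfold bump
  refine le_trans (le_of_eq ?_) (le_max_right _ _)
  ring

theorem near_pos (hc : G.Connected) (hℓ : ∀ e ∈ G.edgeSet, 0 < ℓ e) (hν : Near G ℓ X ν)
    {u : V} (hu : u ∉ X) : 0 < pathDist G ℓ u (ν u) :=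
  (pathDist_isMet hc hℓ).pos _ _ fun e => hu (by rw [e]; exact hν.mem _)

theorem bump_ne {u x : V} (h : bump G ℓ ν u x ≠ 0) :
    pathDist G ℓ u x < 2 * pathDist G ℓ u (ν u) := by
  by_contra h'
  exact h (max_eq_left (by linarith))

variable {E : Type} [NormedAddCommGroup E] [NormedSpace ℝ E] {f : V → E} {C : ℝ}

theorem ext_near (hc : G.Connected) (hℓ : ∀ e ∈ G.edgeSet, 0 < ℓ e) (hν : Near G ℓ X ν)
    (hC : 0 ≤ C) (hf : ∀ x ∈ X, ∀ y ∈ X, ‖f x - f y‖ ≤ C * pathDist G ℓ x y) (u : V) :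
    ‖ext G ℓ X ν f u - f (ν u)‖ ≤ 3 * C * pathDist G ℓ u (ν u) := by
  have hd := pathDist_isMet hc hℓ
  by_cases hu : u ∈ X
  · rw [ext, if_pos hu, hν.self u hu, sub_self, norm_zero, hd.self, mul_zero]
  · rw [ext, if_neg hu]
    have hpos := near_pos hc hℓ hν hu
    have hW := bump_sum_ge hc hℓ hν hu
    rw [avg_sub _ _ _ _ (hpos.trans_le hW)]
    apply avg_bound _ _ _ _ (fun i _ => bump_nonneg u i) (hpos.trans_le hW)
    intro x hx hne
    refine (hf x (mem_attachF.mp hx).1 _ (hν.mem u)).trans ?_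
    have h1 := bump_ne hne
    have h2 := hd.tri x u (ν u)
    rw [hd.symm x u] at h2
    calc C * pathDist G ℓ x (ν u) ≤ C * (3 * pathDist G ℓ u (ν u)) :=
          mul_le_mul_of_nonneg_left (by linarith) hC
      _ = _ := by ring

theorem ext_edge {w : ℕ} (hc : G.Connected) (hℓ : ∀ e ∈ G.edgeSet, 0 < ℓ e) (hν : Near G ℓ X ν)
    (hC : 0 ≤ C) (hf : ∀ x ∈ X, ∀ y ∈ X, ‖f x - f y‖ ≤ C * pathDist G ℓ x y)
    (hw : ∀ u ∉ X, (attach G X u).ncard ≤ w) {u v : V} (huv : G.Adj u v) :
    ‖ext G ℓ X ν f u - ext G ℓ X ν f v‖ ≤ (24 * w + 9) * C * pathDist G ℓ u v := by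
  have hd := pathDist_isMet hc hℓ
  -- reduce to `D u ≥ D v`
  wlog hle : pathDist G ℓ v (ν v) ≤ pathDist G ℓ u (ν u) generalizing u v with H
  · rw [norm_sub_rev, hd.symm]
    exact H huv.symm (le_of_not_ge hle)
  have hδ : 0 < pathDist G ℓ u v := hd.pos _ _ huv.ne
  have hw0 : (0 : ℝ) ≤ 24 * w := by positivity
  have h0 : 0 ≤ 24 * w * (C * pathDist G ℓ u v) := by positivity
  by_cases hcase : pathDist G ℓ u (ν u) ≤ pathDist G ℓ u v
  · -- far apart
    have h1 := ext_near hc hℓ hν hC hf u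
    have h2 := ext_near hc hℓ hν hC hf v
    have h3 := hf (ν u) (hν.mem u) (ν v) (hν.mem v)
    have h4 : pathDist G ℓ (ν u) (ν v) ≤
        pathDist G ℓ u (ν u) + pathDist G ℓ u v + pathDist G ℓ v (ν v) := by
      have h5 := hd.tri (ν u) u (ν v)
      have h6 := hd.tri u v (ν v)
      rw [hd.symm (ν u) u] at h5
      linarith
    have h7 : ‖ext G ℓ X ν f u - ext G ℓ X ν f v‖ ≤
        ‖ext G ℓ X ν f u - f (ν u)‖ + ‖f (ν u) - f (ν v)‖ + ‖ext G ℓ X ν f v - f (ν v)‖ := by
      have : ext G ℓ X ν f u - ext G ℓ X ν f v =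
        (ext G ℓ X ν f u - f (ν u)) + (f (ν u) - f (ν v)) - (ext G ℓ X ν f v - f (ν v)) := by abel
      rw [this]
      exact (norm_sub_le _ _).trans (add_le_add (norm_add_le _ _) le_rfl)
    have h8 : C * pathDist G ℓ (ν u) (ν v) ≤ C * (3 * pathDist G ℓ u v) :=
      mul_le_mul_of_nonneg_left (by linarith) hC
    have h9 : C * pathDist G ℓ u (ν u) ≤ C * pathDist G ℓ u v := mul_le_mul_of_nonneg_left hcase hC
    have h10 : C * pathDist G ℓ v (ν v) ≤ C * pathDist G ℓ u v :=
      mul_le_mul_of_nonneg_left (hle.trans hcase) hC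
    nlinarith
  · -- close, so both are outside `X`
    rw [not_le] at hcase
    have hu : u ∉ X := by
      intro hu
      rw [hν.self u hu, hd.self] at hcase
      linarith
    have hv : v ∉ X := fun hv => absurd (hν.le u v hv) (not_le.mpr hcase)
    have hatt : attachF G X v = attachF G X u := by
      unfold attachF
      ext x
      simp [attach_congr (ReachOff.adj hu hv huv)]
    have hposu := near_pos hc hℓ hν hu
    have hposv := near_pos hc hℓ hν hv
    have hWu := bump_sum_ge hc hℓ hν hu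
    have hWv := bump_sum_ge hc hℓ hν hv
    have e1 : ext G ℓ X ν f u - ext G ℓ X ν f v =
        (ext G ℓ X ν f u - f (ν u)) - (ext G ℓ X ν f v - f (ν u)) := by abel
    rw [e1]
    unfold ext
    rw [if_neg hu, if_neg hv, avg_sub _ _ _ _ (hposu.trans_le hWu),
      avg_sub _ _ _ _ (hposv.trans_le hWv)]
    rw [hatt] at hWv ⊢
    refine (avg_diff _ _ _ _ (4 * C * pathDist G ℓ u (ν u)) (fun i _ => bump_nonneg v i) (hposu.trans_le hWu) (hposv.trans_le hWv) ?_).trans ?_
    · intro x hx hne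
      refine (hf x (mem_attachF.mp hx).1 _ (hν.mem u)).trans ?_
      have h2 := hd.tri x u (ν u)
      rw [hd.symm x u] at h2
      have h3 : pathDist G ℓ u x ≤ 3 * pathDist G ℓ u (ν u) := by
        rcases hne with hne | hne
        · have := bump_ne hne
          linarith
        · have h4 := bump_ne hne
          have h5 := hd.tri u v x
          linarith
      calc C * pathDist G ℓ x (ν u) ≤ C * (4 * pathDist G ℓ u (ν u)) :=
            mul_le_mul_of_nonneg_left (by linarith) hC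
        _ = _ := by ring
    · have hterm : ∀ x ∈ attachF G X u, |bump G ℓ ν u x - bump G ℓ ν v x| ≤
          3 * pathDist G ℓ u v := by
        intro x _
        unfold bump
        refine (abs_max_sub_max_le_max _ _ _ _).trans (max_le ?_ ?_)
        · simp only [sub_self, abs_zero]; linarith
        · have h1 := hν.lip hc hℓ u v
          have h2 := hν.lip hc hℓ v u
          have h3 := hd.tri u v x
          have h4 := hd.tri v u x
          rw [hd.symm v u] at h2 h4
          rw [abs_le]; constructor <;> linarith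
      have hsum : ∑ x ∈ attachF G X u, |bump G ℓ ν u x - bump G ℓ ν v x| ≤
          w * (3 * pathDist G ℓ u v) := by
        refine (Finset.sum_le_card_nsmul _ _ _ hterm).trans ?_
        rw [nsmul_eq_mul]
        have hcard : (attachF G X u).card ≤ w := by
          have := hw u hu
          rwa [Set.ncard_eq_toFinset_card _ (Set.toFinite _)] at this
        have hcard' : ((attachF G X u).card : ℝ) ≤ w := by exact_mod_cast hcard
        exact mul_le_mul_of_nonneg_right hcard' (by positivity)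
      set A := ∑ x ∈ attachF G X u, bump G ℓ ν u x with hAdef
      have hA : 0 < A := hposu.trans_le hWu
      have h5 : 2 * (4 * C * pathDist G ℓ u (ν u)) / A ≤ 8 * C := by
        rw [div_le_iff₀ hA]
        have : C * pathDist G ℓ u (ν u) ≤ C * A := mul_le_mul_of_nonneg_left hWu hC
        linarith
      have hsum0 : 0 ≤ ∑ x ∈ attachF G X u, |bump G ℓ ν u x - bump G ℓ ν v x| :=
        Finset.sum_nonneg fun _ _ => abs_nonneg _
      calc 2 * (4 * C * pathDist G ℓ u (ν u)) / A *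
            ∑ x ∈ attachF G X u, |bump G ℓ ν u x - bump G ℓ ν v x|
          ≤ 8 * C * (w * (3 * pathDist G ℓ u v)) :=
            mul_le_mul h5 hsum hsum0 (by positivity)
        _ ≤ _ := by nlinarith [mul_nonneg hC hδ.le]

end

end Vale.Agent.P235

end

section

namespace Vale.Agent.P235

open MeasureTheory

theorem EmbedsL1.toL1S {V : Type} {d : V → V → ℝ} {C : ℝ} (h : EmbedsL1 d C) :
    ∃ ρ : V → V → ℝ, L1S ρ ∧ (∀ x y, d x y ≤ ρ x y) ∧ (∀ x y, ρ x y ≤ C * d x y) ∧
      (∀ x, ρ x x = 0) ∧ (∀ x y, 0 ≤ ρ x y) ∧ (∀ x y, ρ x y = ρ y x) ∧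
      (∀ x y z, ρ x z ≤ ρ x y + ρ y z) := by
  obtain ⟨Ω, _, μ, f, hf⟩ := h
  refine ⟨fun x y => ‖f x - f y‖, ⟨Ω, inferInstance, μ, f, fun _ _ => rfl⟩, fun x y => (hf x y).1,
    fun x y => (hf x y).2, fun x => by simp, fun x y => norm_nonneg _,
    fun x y => norm_sub_rev _ _, fun x y z => norm_sub_le_norm_sub_add_norm_sub _ _ _⟩

theorem pathDist_nonneg {V : Type} {G : SimpleGraph V} {ℓ : Sym2 V → ℝ}
    (hℓ : ∀ e ∈ G.edgeSet, 0 < ℓ e) (x y : V) : 0 ≤ pathDist G ℓ x y :=
  Real.iInf_nonneg fun w => walk_nonneg hℓ w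

theorem DistortionLE.mono {V : Type} {G : SimpleGraph V} {C C' : ℝ} (h : DistortionLE G C)
    (hC : C ≤ C') : DistortionLE G C' := by
  intro ℓ hℓ
  obtain ⟨Ω, m, μ, f, hf⟩ := h ℓ hℓ
  exact ⟨Ω, m, μ, f, fun x y => ⟨(hf x y).1, (hf x y).2.trans
    (mul_le_mul_of_nonneg_right hC (pathDist_nonneg hℓ x y))⟩⟩

theorem walk_semi {V : Type} {G : SimpleGraph V} {ℓ : Sym2 V → ℝ} {ρ : V → V → ℝ} {K : ℝ}
    (h0 : ∀ x, ρ x x = 0) (ht : ∀ x y z, ρ x z ≤ ρ x y + ρ y z)
    (he : ∀ u v, G.Adj u v → ρ u v ≤ K * ℓ s(u, v)) {x y : V} (p : G.Walk x y) :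
    ρ x y ≤ K * (p.edges.map ℓ).sum := by
  induction p with
  | nil => simp [h0]
  | @cons x a y h p ih =>
    rw [SimpleGraph.Walk.edges_cons, List.map_cons, List.sum_cons, mul_add]
    exact (ht x a y).trans (add_le_add (he _ _ h) ih)

theorem pathDist_semi {V : Type} {G : SimpleGraph V} {ℓ : Sym2 V → ℝ} {ρ : V → V → ℝ} {K : ℝ}
    (hc : G.Connected) (hK : 0 < K)
    (h0 : ∀ x, ρ x x = 0) (ht : ∀ x y z, ρ x z ≤ ρ x y + ρ y z)
    (he : ∀ u v, G.Adj u v → ρ u v ≤ K * ℓ s(u, v)) (x y : V) :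
    ρ x y ≤ K * pathDist G ℓ x y := by
  have : Nonempty (G.Walk x y) := hc x y
  rw [← div_le_iff₀' hK]
  refine le_ciInf fun p => ?_
  rw [div_le_iff₀' hK]
  exact walk_semi h0 ht he p

/-- the components of `G - X` -/
def compSetoid {V : Type} (G : SimpleGraph V) (X : Set V) : Setoid {u // u ∉ X} where
  r a b := ReachOff G X a b
  iseqv := ⟨fun a => ReachOff.refl a.2, fun h => h.symm, fun h h' => h.trans h'⟩

end Vale.Agent.P235

end

section

namespace Vale.Agent.P235

/-- `E x y = E[σ(x) σ(y)]` for a random sign function `σ` (finitely many outcomes). -/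
def SignRep {V : Type} (E : V → V → ℝ) : Prop :=
  ∃ (κ : Type) (_ : Fintype κ) (q : κ → ℝ) (s : κ → V → Bool), (∀ k, 0 ≤ q k) ∧ ∑ k, q k = 1 ∧
    ∀ x y, E x y = ∑ k, q k * (if s k x = s k y then 1 else -1)

theorem SignRep.one {V : Type} : SignRep (fun _ _ : V => (1 : ℝ)) :=
  ⟨Unit, inferInstance, fun _ => 1, fun _ _ => false, fun _ => zero_le_one, by simp, by simp⟩

theorem SignRep.mul {V : Type} {E E' : V → V → ℝ} (h : SignRep E) (h' : SignRep E') :
    SignRep (fun x y => E x y * E' x y) := by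
  obtain ⟨κ, _, q, s, hq, h1, hE⟩ := h
  obtain ⟨κ', _, q', s', hq', h1', hE'⟩ := h'
  refine ⟨κ × κ', inferInstance, fun k => q k.1 * q' k.2, fun k x => xor (s k.1 x) (s' k.2 x),
    fun k => mul_nonneg (hq _) (hq' _), ?_, fun x y => ?_⟩
  · rw [Fintype.sum_prod_type]
    simp only [← Finset.mul_sum, h1', mul_one, h1]
  · beta_reduce
    rw [hE, hE', Finset.sum_mul_sum, Fintype.sum_prod_type]
    refine Finset.sum_congr rfl fun k _ => Finset.sum_congr rfl fun k' _ => ?_
    dsimp only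
    cases s k x <;> cases s k y <;> cases s' k' x <;> cases s' k' y <;> norm_num <;> ring

theorem SignRep.cut {V : Type} (c : V → Bool) {w : ℝ} (hw : 0 ≤ w) :
    SignRep (fun x y => Real.exp (-(w * (if c x = c y then 0 else 1)))) := by
  have h1 : Real.exp (-w) ≤ 1 := Real.exp_le_one_iff.mpr (by linarith)
  have h0 : 0 < Real.exp (-w) := Real.exp_pos _
  refine ⟨Bool, inferInstance, fun b => if b then (1 + Real.exp (-w)) / 2
    else (1 - Real.exp (-w)) / 2, fun b x => if b then false else c x, ?_, ?_, ?_⟩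
  · intro b
    cases b
    · simp only [Bool.false_eq_true, if_false]; linarith
    · simp only [if_true]; linarith
  · simp only [Fintype.sum_bool, if_true, Bool.false_eq_true, if_false]
    ring
  · intro x y
    simp only [Fintype.sum_bool, if_true, Bool.false_eq_true, if_false]
    by_cases h : c x = c y
    · simp only [h, if_true, mul_zero, neg_zero, Real.exp_zero]
      ring
    · simp only [h, if_false, mul_one]
      ring

theorem SignRep.congr {V : Type} {E E' : V → V → ℝ} (h : SignRep E) (he : ∀ x y, E' x y = E x y) :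
    SignRep E' := by
  have : E' = E := by funext x y; exact he x y
  rw [this]; exact h

/-- XOR-truncation -/
theorem IsL1.signRep {V : Type} {ρ : V → V → ℝ} (h : IsL1 ρ) {τ : ℝ} (hτ : 0 < τ) :
    SignRep (fun x y => Real.exp (-(ρ x y / τ))) := by
  classical
  obtain ⟨ι, _, w, c, hw, hρ⟩ := h
  have key : ∀ s : Finset ι, SignRep (fun x y =>
      Real.exp (-(∑ i ∈ s, w i / τ * (if c i x = c i y then 0 else 1)))) := by
    intro s
    induction s using Finset.induction_on with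
    | empty => simpa using (SignRep.one : SignRep (fun _ _ : V => (1 : ℝ)))
    | insert a s ha ih =>
      refine ((SignRep.cut (c a) (div_nonneg (hw a) hτ.le)).mul ih).congr fun x y => ?_
      rw [Finset.sum_insert ha, neg_add, Real.exp_add]
  refine (key Finset.univ).congr fun x y => ?_
  rw [hρ, Finset.sum_div]
  congr 2
  exact Finset.sum_congr rfl fun i _ => by ring

/-- real sign -/
def sg (b : Bool) : ℝ := if b then 1 else -1

theorem sg_abs (b : Bool) : |sg b| = 1 := by cases b <;> simp [sg]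

theorem sg_sub (b b' : Bool) : |sg b - sg b'| = 1 - (if b = b' then 1 else -1) := by
  cases b <;> cases b' <;> simp [sg] <;> norm_num

theorem sg_upper (b b' : Bool) {p p' : ℝ} (hp : 0 ≤ p) :
    |p * sg b - p' * sg b'| ≤ p * |sg b - sg b'| + |p - p'| := by
  have h : p * sg b - p' * sg b' = p * (sg b - sg b') + (p - p') * sg b' := by ring
  rw [h]
  refine (abs_add_le _ _).trans ?_
  rw [abs_mul, abs_mul, sg_abs, mul_one, abs_of_nonneg hp]

theorem sg_lower (b b' : Bool) {p p' : ℝ} (hp : 0 ≤ p) :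
    p * |sg b - sg b'| - |p - p'| ≤ |p * sg b - p' * sg b'| := by
  have h : p * (sg b - sg b') = (p * sg b - p' * sg b') - (p - p') * sg b' := by ring
  have h1 : p * |sg b - sg b'| = |p * (sg b - sg b')| := by rw [abs_mul, abs_of_nonneg hp]
  rw [h1, h]
  have h2 := abs_sub (p * sg b - p' * sg b') ((p - p') * sg b')
  rw [abs_mul (p - p'), sg_abs, mul_one] at h2
  linarith

theorem exp_upper {ρ τ : ℝ} (hτ : 0 < τ) : τ * (1 - Real.exp (-(ρ / τ))) ≤ ρ := by
  have h := Real.add_one_le_exp (-(ρ / τ))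
  have h1 : τ * (1 - Real.exp (-(ρ / τ))) ≤ τ * (ρ / τ) :=
    mul_le_mul_of_nonneg_left (by linarith) hτ.le
  rwa [mul_div_cancel₀ _ hτ.ne'] at h1

theorem exp_lower {ρ τ : ℝ} (hτ : 0 < τ) (hρ : 0 ≤ ρ) :
    min ρ τ / 2 ≤ τ * (1 - Real.exp (-(ρ / τ))) := by
  set t := ρ / τ with ht
  have ht0 : 0 ≤ t := div_nonneg hρ hτ.le
  have hρt : ρ = τ * t := by rw [ht]; field_simp
  have h1 : 1 + t ≤ Real.exp t := by linarith [Real.add_one_le_exp t]
  have h2 : Real.exp (-t) ≤ 1 / (1 + t) := by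
    rw [Real.exp_neg, inv_eq_one_div]
    exact one_div_le_one_div_of_le (by linarith) h1
  have h3 : min t 1 / 2 ≤ 1 - Real.exp (-t) := by
    have h4 : 1 - 1 / (1 + t) = t / (1 + t) := by field_simp; ring
    have h5 : min t 1 / 2 ≤ t / (1 + t) := by
      rw [div_le_div_iff₀ (by norm_num) (by linarith)]
      rcases le_total t 1 with h | h
      · rw [min_eq_left h]; nlinarith
      · rw [min_eq_right h]; linarith
    linarith
  have h6 : min ρ τ = τ * min t 1 := by
    rw [hρt, mul_min_of_nonneg _ _ hτ.le, mul_one]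
  rw [h6]
  calc τ * min t 1 / 2 = τ * (min t 1 / 2) := by ring
    _ ≤ _ := mul_le_mul_of_nonneg_left h3 hτ.le

/-- One scale: from an `L₁` semimetric `ρ` on the subset `K`, a scale `τ` and a nonnegative
function `φ` vanishing off `K`. -/
theorem one_scale {V : Type} [Finite V] {K : Set V} {ρ : K → K → ℝ} (hρ : IsL1 ρ) {τ : ℝ}
    (hτ : 0 < τ) (φ : V → ℝ) (hφ : ∀ x, 0 ≤ φ x) (hφ0 : ∀ x, x ∉ K → φ x = 0) :
    ∃ R : V → V → ℝ, IsL1 R ∧
      (∀ x y : K, R x y ≤ φ x * ρ x y + τ * |φ x - φ y|) ∧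
      (∀ x y : K, φ x * (min (ρ x y) τ / 2) - τ * |φ x - φ y| ≤ R x y) ∧
      (∀ x y : V, y ∉ K → R x y = τ * φ x) := by
  classical
  obtain ⟨κ, _, q, s, hq, h1, hE⟩ := hρ.signRep hτ
  let s' : κ → V → Bool := fun k x => if h : x ∈ K then s k ⟨x, h⟩ else true
  have hs' : ∀ k (x : K), s' k x = s k x := by
    intro k x
    simp [s']
  let g : κ → V → ℝ := fun k x => φ x * sg (s' k x)
  have hR : IsL1 (fun x y => τ * ∑ k, q k * |g k x - g k y|) := by
    refine IsL1.smul (IsL1.sum Finset.univ (fun k x y => q k * |g k x - g k y|) fun k _ => ?_) hτ.le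
    exact (isL1_line (g k)).smul (hq k)
  have hsum : ∀ x y : K, ∑ k, q k * |sg (s' k x) - sg (s' k y)| =
      1 - Real.exp (-(ρ x y / τ)) := by
    intro x y
    have hE' : Real.exp (-(ρ x y / τ)) = ∑ k, q k * (if s k x = s k y then 1 else -1) := hE x y
    have h2 : ∑ k, q k * |sg (s' k x) - sg (s' k y)| =
        ∑ k, (q k - q k * (if s k x = s k y then 1 else -1)) := by
      refine Finset.sum_congr rfl fun k _ => ?_
      rw [sg_sub, hs', hs']
      ring
    rw [hE', h2, Finset.sum_sub_distrib, h1]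
  refine ⟨_, hR, ?_, ?_, ?_⟩
  · intro x y
    have h2 : ∑ k, q k * |g k x - g k y| ≤
        ∑ k, (φ x * (q k * |sg (s' k x) - sg (s' k y)|) + q k * |φ x - φ y|) := by
      refine Finset.sum_le_sum fun k _ => ?_
      have := mul_le_mul_of_nonneg_left (sg_upper (s' k x) (s' k y) (p' := φ y) (hφ x)) (hq k)
      linarith
    rw [Finset.sum_add_distrib, ← Finset.mul_sum, ← Finset.sum_mul, h1, hsum, one_mul] at h2
    have h3 := mul_le_mul_of_nonneg_left h2 hτ.le
    have h4 := mul_le_mul_of_nonneg_left (exp_upper (ρ := ρ x y) hτ) (hφ x)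
    beta_reduce
    linarith
  · intro x y
    have h2 : ∑ k, (φ x * (q k * |sg (s' k x) - sg (s' k y)|) - q k * |φ x - φ y|) ≤
        ∑ k, q k * |g k x - g k y| := by
      refine Finset.sum_le_sum fun k _ => ?_
      have := mul_le_mul_of_nonneg_left (sg_lower (s' k x) (s' k y) (p' := φ y) (hφ x)) (hq k)
      linarith
    rw [Finset.sum_sub_distrib, ← Finset.mul_sum, ← Finset.sum_mul, h1, hsum, one_mul] at h2
    have h3 := mul_le_mul_of_nonneg_left h2 hτ.le
    have h4 := mul_le_mul_of_nonneg_left (exp_lower (ρ := ρ x y) hτ (hρ.nonneg x y)) (hφ x)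
    beta_reduce
    linarith
  · intro x y hy
    beta_reduce
    have h2 : ∑ k, q k * |g k x - g k y| = φ x := by
      have h3 : ∀ k, |g k x - g k y| = φ x := by
        intro k
        simp only [g, hφ0 y hy, zero_mul, sub_zero, abs_mul, sg_abs, mul_one]
        exact abs_of_nonneg (hφ x)
      simp only [h3, ← Finset.sum_mul, h1, one_mul]
    rw [h2]

/-- the bump profile, supported on `(1/2, 4)`, at least `1` on `[1, 2]`, `2`-Lipschitz -/
noncomputable def prof (t : ℝ) : ℝ := max 0 (min (2 * t - 1) (2 - t / 2))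

theorem prof_nonneg (t : ℝ) : 0 ≤ prof t := le_max_left _ _

theorem prof_le (t : ℝ) : prof t ≤ 2 := by
  unfold prof
  refine max_le (by norm_num) ?_
  rcases le_total t 1 with h | h
  · exact (min_le_left _ _).trans (by linarith)
  · exact (min_le_right _ _).trans (by linarith)

theorem prof_ge {t : ℝ} (h1 : 1 ≤ t) (h2 : t ≤ 2) : 1 ≤ prof t := by
  unfold prof
  exact le_max_of_le_right (le_min (by linarith) (by linarith))

theorem prof_lip (s t : ℝ) : |prof s - prof t| ≤ 2 * |s - t| := by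
  unfold prof
  refine (abs_max_sub_max_le_max _ _ _ _).trans (max_le ?_ ?_)
  · simp
  · refine (abs_min_sub_min_le_max _ _ _ _).trans (max_le ?_ ?_)
    · have : 2 * s - 1 - (2 * t - 1) = 2 * (s - t) := by ring
      rw [this, abs_mul, abs_two]
    · have : 2 - s / 2 - (2 - t / 2) = -(1 / 2) * (s - t) := by ring
      rw [this, abs_mul]
      have h : |(-(1 / 2) : ℝ)| = 1 / 2 := by norm_num
      rw [h]
      linarith [abs_nonneg (s - t)]

theorem prof_ne {t : ℝ} (h : prof t ≠ 0) : 1 / 2 < t ∧ t < 4 := by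
  unfold prof at h
  by_contra hc
  apply h
  rw [not_and_or, not_lt, not_lt] at hc
  refine max_eq_left ?_
  rcases hc with hc | hc
  · exact (min_le_left _ _).trans (by linarith)
  · exact (min_le_right _ _).trans (by linarith)

/-- active scales -/
theorem active {D : ℝ} (hD : 0 < D) {j : ℤ} (h : prof (D / 2 ^ j) ≠ 0) :
    j ∈ Finset.Icc (Int.log 2 D - 1) (Int.log 2 D + 1) := by
  obtain ⟨h1, h2⟩ := prof_ne h
  have hj : (0 : ℝ) < 2 ^ j := by positivity
  rw [lt_div_iff₀ hj] at h1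
  rw [div_lt_iff₀ hj] at h2
  have h3 : (2 : ℝ) ^ (Int.log 2 D) ≤ D := Int.zpow_log_le_self (by norm_num) hD
  have h4 : D < (2 : ℝ) ^ (Int.log 2 D + 1) := Int.lt_zpow_succ_log_self (by norm_num) D
  rw [Finset.mem_Icc]
  constructor
  · have h5 : (2 : ℝ) ^ (Int.log 2 D) < 2 ^ (j + 2) := by
      calc (2 : ℝ) ^ (Int.log 2 D) ≤ D := h3
        _ < 4 * 2 ^ j := h2
        _ = 2 ^ (j + 2) := by rw [zpow_add₀ (by norm_num)]; norm_num; ring
    have := (zpow_lt_zpow_iff_right₀ (by norm_num : (1 : ℝ) < 2)).mp h5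
    omega
  · have h5 : (2 : ℝ) ^ j < 2 ^ (Int.log 2 D + 2) := by
      calc (2 : ℝ) ^ j < 2 * D := by linarith
        _ < 2 * 2 ^ (Int.log 2 D + 1) := by linarith
        _ = 2 ^ (Int.log 2 D + 2) := by
            rw [show Int.log 2 D + 2 = (Int.log 2 D + 1) + 1 by ring,
              zpow_add_one₀ (by norm_num) (Int.log 2 D + 1)]
            exact mul_comm _ _
    have := (zpow_lt_zpow_iff_right₀ (by norm_num : (1 : ℝ) < 2)).mp h5
    omega

end Vale.Agent.P235

end

section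

namespace Vale.Agent.P235

variable {V : Type} [Finite V] {G : SimpleGraph V} {X : Set V} {ℓ : Sym2 V → ℝ} {ν : V → V}

omit [Finite V] in
theorem comp_connected {u : V} (hu : u ∉ X) : (G.induce (compSet G X u)).Connected := by
  have key : ∀ (a v : V) (p : G.Walk a v) (hp : ∀ b ∈ p.support, b ∉ X) (ha : ReachOff G X u a)
      (hv : ReachOff G X u v),
      (G.induce (compSet G X u)).Reachable ⟨a, ha⟩ ⟨v, hv⟩ := by
    intro a v p
    induction p with
    | nil => intro _ _ _; exact SimpleGraph.Reachable.refl _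
    | @cons a b v h p ih =>
      intro hp ha hv
      rw [SimpleGraph.Walk.support_cons] at hp
      have hb : b ∉ X := hp b (List.mem_cons_of_mem _ p.start_mem_support)
      have hab : ReachOff G X u b := ha.trans (ReachOff.adj ha.right hb h)
      have h1 : (G.induce (compSet G X u)).Adj ⟨a, ha⟩ ⟨b, hab⟩ := h
      exact h1.reachable.trans (ih (fun c hc => hp c (List.mem_cons_of_mem _ hc)) hab hv)
  rw [SimpleGraph.connected_iff]
  refine ⟨?_, ⟨⟨u, ReachOff.refl hu⟩⟩⟩
  rintro ⟨a, ha⟩ ⟨v, hv⟩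
  obtain ⟨p, hp⟩ := (ha.symm.trans hv : ReachOff G X a v)
  exact key a v p hp ha hv

/-- the finite multi-scale map of one component -/
theorem comp_one {C : ℝ} (hC : 0 < C) (hc : G.Connected) (hℓ : ∀ e ∈ G.edgeSet, 0 < ℓ e)
    (hν : Near G ℓ X ν) {u : V} (hu : u ∉ X)
    (hcomp : DistortionLE (G.induce (compSet G X u)) C) (J : Finset ℤ) :
    ∃ R : V → V → ℝ, IsL1 R ∧
      (∀ x y : V, x ∈ compSet G X u → y ∈ compSet G X u → G.Adj x y →
        R x y ≤ 12 * (C + 1) * ℓ s(x, y)) ∧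
      (∀ x y : V, x ∈ compSet G X u → y ∉ compSet G X u →
        R x y ≤ 12 * pathDist G ℓ x (ν x)) ∧
      (∀ x y : V, x ∈ compSet G X u → y ∉ compSet G X u →
        Int.log 2 (pathDist G ℓ x (ν x)) ∈ J → pathDist G ℓ x (ν x) / 2 ≤ R x y) ∧
      (∀ x y : V, x ∈ compSet G X u → y ∈ compSet G X u →
        Int.log 2 (pathDist G ℓ x (ν x)) ∈ J →
        pathDist G ℓ y (ν y) ≤ pathDist G ℓ x (ν x) →
        min (pathDist G ℓ x y) (pathDist G ℓ x (ν x) + pathDist G ℓ y (ν y)) / 8 -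
          2 * |pathDist G ℓ x (ν x) - pathDist G ℓ y (ν y)| ≤ R x y) ∧
      (∀ x y : V, x ∉ compSet G X u → y ∉ compSet G X u → R x y = 0) := by
  classical
  have hd := pathDist_isMet hc hℓ
  set K := compSet G X u with hK
  set D : V → ℝ := fun x => pathDist G ℓ x (ν x) with hD
  have hKX : ∀ x ∈ K, x ∉ X := fun x hx => ReachOff.right hx
  have hDpos : ∀ x ∈ K, 0 < D x := fun x hx => near_pos hc hℓ hν (hKX x hx)
  -- lengths on `K`
  let ℓ' : Sym2 K → ℝ := fun e => ℓ (e.map Subtype.val)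
  have hℓ'mk : ∀ x y : K, ℓ' s(x, y) = ℓ s(x.1, y.1) := fun x y => rfl
  have hℓ' : ∀ e ∈ (G.induce K).edgeSet, 0 < ℓ' e := by
    intro e
    induction e using Sym2.inductionOn with
    | hf a b =>
      intro he
      rw [hℓ'mk]
      exact hℓ _ (G.mem_edgeSet.mpr (SimpleGraph.mem_edgeSet _ |>.mp he))
  have hKc : (G.induce K).Connected := comp_connected hu
  obtain ⟨ρ, hρL, hρ1, hρ2, -⟩ := (hcomp ℓ' hℓ').toL1S
  have hρI : IsL1 ρ := hρL.isL1
  have hρd : ∀ x y : K, pathDist G ℓ x y ≤ ρ x y := by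
    intro x y
    refine le_trans ?_ (hρ1 x y)
    have h := pathDist_gen (ℓ := ℓ') hKc (f := fun z : K => pathDist G ℓ x z) (fun a b hab => by
      rw [hℓ'mk]
      have h1 := pathDist_adj hℓ (show G.Adj a b from hab)
      have h2 := hd.tri x a b
      have h3 := hd.tri x b a
      rw [hd.symm b a] at h3
      rw [abs_le]; constructor <;> linarith) x y
    simp only [hd.self, zero_sub, abs_neg] at h
    exact (le_abs_self _).trans h
  have hρℓ : ∀ x y : K, G.Adj x y → ρ x y ≤ C * ℓ s(x.1, y.1) := by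
    intro x y hxy
    refine (hρ2 x y).trans (mul_le_mul_of_nonneg_left ?_ hC.le)
    exact (pathDist_adj hℓ' (show (G.induce K).Adj x y from hxy))
  -- one scale maps
  let φ : ℤ → V → ℝ := fun j x => if x ∈ K then prof (D x / 2 ^ j) else 0
  have hφK : ∀ j, ∀ x ∈ K, φ j x = prof (D x / 2 ^ j) := fun j x hx => if_pos hx
  have hφ0 : ∀ j, ∀ x, x ∉ K → φ j x = 0 := fun j x hx => if_neg hx
  have hφn : ∀ j x, 0 ≤ φ j x := by
    intro j x
    by_cases hx : x ∈ K
    · rw [hφK j x hx]; exact prof_nonneg _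
    · rw [hφ0 j x hx]
  have hφ2 : ∀ j x, φ j x ≤ 2 := by
    intro j x
    by_cases hx : x ∈ K
    · rw [hφK j x hx]; exact prof_le _
    · rw [hφ0 j x hx]; norm_num
  have hφl : ∀ j, ∀ x ∈ K, ∀ y ∈ K, (2 : ℝ) ^ j * |φ j x - φ j y| ≤ 2 * |D x - D y| := by
    intro j x hx y hy
    have hj : (0 : ℝ) < 2 ^ j := by positivity
    rw [hφK j x hx, hφK j y hy]
    calc (2 : ℝ) ^ j * |prof (D x / 2 ^ j) - prof (D y / 2 ^ j)|
        ≤ 2 ^ j * (2 * |D x / 2 ^ j - D y / 2 ^ j|) :=
          mul_le_mul_of_nonneg_left (prof_lip _ _) hj.le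
      _ = 2 * |D x - D y| := by
          rw [← sub_div, abs_div, abs_of_pos hj]
          field_simp
  have hS : ∀ j : ℤ, ∃ R : V → V → ℝ, IsL1 R ∧
      (∀ x y : K, R x y ≤ φ j x * ρ x y + 2 ^ j * |φ j x - φ j y|) ∧
      (∀ x y : K, φ j x * (min (ρ x y) (2 ^ j) / 2) - 2 ^ j * |φ j x - φ j y| ≤ R x y) ∧
      (∀ x y : V, y ∉ K → R x y = 2 ^ j * φ j x) := fun j =>
    one_scale hρI (by positivity) (φ j) (hφn j) (hφ0 j)
  choose R hRI hR1 hR2 hR3 using hS
  have hRn : ∀ j x y, 0 ≤ R j x y := fun j x y => (hRI j).nonneg x y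
  have hlog1 : ∀ x ∈ K, (2 : ℝ) ^ (Int.log 2 (D x)) ≤ D x := fun x hx =>
    Int.zpow_log_le_self (by norm_num) (hDpos x hx)
  have hlog2 : ∀ x : V, D x < 2 * (2 : ℝ) ^ (Int.log 2 (D x)) := by
    intro x
    have := Int.lt_zpow_succ_log_self (b := 2) (by norm_num) (D x)
    rw [zpow_add_one₀ (by norm_num)] at this
    push_cast at this
    linarith
  have hφ1 : ∀ x ∈ K, 1 ≤ φ (Int.log 2 (D x)) x := by
    intro x hx
    rw [hφK _ x hx]
    have hj : (0 : ℝ) < 2 ^ (Int.log 2 (D x)) := by positivity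
    refine prof_ge ?_ ?_
    · rw [le_div_iff₀ hj, one_mul]; exact hlog1 x hx
    · rw [div_le_iff₀ hj]; exact (hlog2 x).le
  have hsingle : ∀ j ∈ J, ∀ x y, R j x y ≤ ∑ j ∈ J, R j x y := fun j hj x y =>
    Finset.single_le_sum (f := fun j => R j x y) (fun j _ => hRn j x y) hj
  have hDl : ∀ x y, |D x - D y| ≤ pathDist G ℓ x y := by
    intro x y
    have h1 := hν.lip hc hℓ x y
    have h2 := hν.lip hc hℓ y x
    rw [hd.symm y x] at h2
    rw [abs_le]; constructor <;> (simp only [hD]; linarith)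
  refine ⟨fun x y => ∑ j ∈ J, R j x y, IsL1.sum J (fun j => R j) fun j _ => hRI j,
    ?_, ?_, ?_, ?_, ?_⟩
  · -- edges inside `K`
    intro x y hx hy hxy
    have hB0 : 0 ≤ 2 * (C * ℓ s(x, y)) + 2 * ℓ s(x, y) := by
      have := hℓ _ (G.mem_edgeSet.mpr hxy)
      positivity
    set A : Finset ℤ := Finset.Icc (Int.log 2 (D x) - 1) (Int.log 2 (D x) + 1) ∪
      Finset.Icc (Int.log 2 (D y) - 1) (Int.log 2 (D y) + 1) with hA
    have hcard : (A.card : ℝ) ≤ 6 := by
      have h1 : A.card ≤ 6 := by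
        refine (Finset.card_union_le _ _).trans ?_
        rw [Int.card_Icc, Int.card_Icc]
        have e1 : (Int.log 2 (D x) + 1 + 1 - (Int.log 2 (D x) - 1)).toNat = 3 := by
          have : Int.log 2 (D x) + 1 + 1 - (Int.log 2 (D x) - 1) = 3 := by ring
          rw [this]; rfl
        have e2 : (Int.log 2 (D y) + 1 + 1 - (Int.log 2 (D y) - 1)).toNat = 3 := by
          have : Int.log 2 (D y) + 1 + 1 - (Int.log 2 (D y) - 1) = 3 := by ring
          rw [this]; rfl
        rw [e1, e2]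
      exact_mod_cast h1
    have hterm : ∀ j ∈ J, R j x y ≤ if j ∈ A then 2 * (C * ℓ s(x, y)) + 2 * ℓ s(x, y) else 0 := by
      intro j _
      have h1 := hR1 j ⟨x, hx⟩ ⟨y, hy⟩
      simp only at h1
      by_cases hj : j ∈ A
      · rw [if_pos hj]
        refine h1.trans (add_le_add ?_ ?_)
        · have h2 := hρℓ ⟨x, hx⟩ ⟨y, hy⟩ hxy
          exact mul_le_mul (hφ2 j x) h2 (hρI.nonneg _ _) (by norm_num)
        · refine (hφl j x hx y hy).trans ?_
          have := (hDl x y).trans (pathDist_adj hℓ hxy)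
          linarith
      · rw [if_neg hj]
        rw [hA, Finset.mem_union, not_or] at hj
        have hx0 : φ j x = 0 := by
          rw [hφK j x hx]
          by_contra hne
          exact hj.1 (active (hDpos x hx) hne)
        have hy0 : φ j y = 0 := by
          rw [hφK j y hy]
          by_contra hne
          exact hj.2 (active (hDpos y hy) hne)
        rw [hx0, hy0] at h1
        simpa using h1
    refine (Finset.sum_le_sum hterm).trans ?_
    rw [Finset.sum_ite_mem, Finset.sum_const, nsmul_eq_mul]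
    have h2 : ((J ∩ A).card : ℝ) ≤ A.card := by
      exact_mod_cast Finset.card_le_card Finset.inter_subset_right
    calc ((J ∩ A).card : ℝ) * (2 * (C * ℓ s(x, y)) + 2 * ℓ s(x, y))
        ≤ 6 * (2 * (C * ℓ s(x, y)) + 2 * ℓ s(x, y)) :=
          mul_le_mul_of_nonneg_right (h2.trans hcard) hB0
      _ = _ := by ring
  · -- upper bound across
    intro x y hx hy
    set A : Finset ℤ := Finset.Icc (Int.log 2 (D x) - 1) (Int.log 2 (D x) + 1) with hA
    have hcard : (A.card : ℝ) = 3 := by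
      have h1 : A.card = 3 := by
        rw [hA, Int.card_Icc]
        have : Int.log 2 (D x) + 1 + 1 - (Int.log 2 (D x) - 1) = 3 := by ring
        rw [this]; rfl
      rw [h1]; norm_num
    have hterm : ∀ j ∈ J, R j x y ≤ if j ∈ A then 4 * D x else 0 := by
      intro j _
      rw [hR3 j x y hy]
      by_cases hj : j ∈ A
      · rw [if_pos hj]
        by_cases h0 : φ j x = 0
        · rw [h0, mul_zero]; linarith [hDpos x hx]
        · rw [hφK j x hx] at h0
          have h1 := (prof_ne h0).1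
          have hj : (0 : ℝ) < 2 ^ j := by positivity
          rw [lt_div_iff₀ hj] at h1
          calc (2 : ℝ) ^ j * φ j x ≤ 2 ^ j * 2 := mul_le_mul_of_nonneg_left (hφ2 j x) hj.le
            _ ≤ _ := by linarith
      · rw [if_neg hj]
        have hx0 : φ j x = 0 := by
          rw [hφK j x hx]
          by_contra hne
          exact hj (active (hDpos x hx) hne)
        rw [hx0, mul_zero]
    refine (Finset.sum_le_sum hterm).trans ?_
    rw [Finset.sum_ite_mem, Finset.sum_const, nsmul_eq_mul]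
    have h2 : ((J ∩ A).card : ℝ) ≤ A.card := by
      exact_mod_cast Finset.card_le_card Finset.inter_subset_right
    rw [hcard] at h2
    have h3 : 0 ≤ 4 * D x := by linarith [hDpos x hx]
    calc ((J ∩ A).card : ℝ) * (4 * D x) ≤ 3 * (4 * D x) := mul_le_mul_of_nonneg_right h2 h3
      _ = _ := by ring
  · -- lower bound across
    intro x y hx hy hJ
    refine le_trans ?_ (hsingle _ hJ x y)
    rw [hR3 _ x y hy]
    have h1 := hφ1 x hx
    have h2 := hlog2 x
    have hj : (0 : ℝ) < 2 ^ (Int.log 2 (D x)) := by positivity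
    calc D x / 2 ≤ 2 ^ (Int.log 2 (D x)) * 1 := by linarith
      _ ≤ _ := mul_le_mul_of_nonneg_left h1 hj.le
  · -- lower bound inside
    intro x y hx hy hJ hle
    refine le_trans ?_ (hsingle _ hJ x y)
    have h1 := hR2 (Int.log 2 (D x)) ⟨x, hx⟩ ⟨y, hy⟩
    simp only at h1
    refine le_trans ?_ h1
    have h2 := hφl (Int.log 2 (D x)) x hx y hy
    have h3 := hφ1 x hx
    have h4 := hlog2 x
    have h5 := hρd ⟨x, hx⟩ ⟨y, hy⟩
    simp only at h5
    have hDy : 0 ≤ D y := hd.nonneg _ _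
    have hle' : D y ≤ D x := hle
    have h6 : min (pathDist G ℓ x y) (D x + D y) / 4 ≤
        min (ρ ⟨x, hx⟩ ⟨y, hy⟩) (2 ^ (Int.log 2 (D x))) := by
      refine le_min ?_ ?_
      · have h7 := min_le_left (pathDist G ℓ x y) (D x + D y)
        have h8 := hd.nonneg x y
        linarith
      · have h7 := min_le_right (pathDist G ℓ x y) (D x + D y)
        linarith
    have h7 : 0 ≤ min (ρ ⟨x, hx⟩ ⟨y, hy⟩) (2 ^ (Int.log 2 (D x))) / 2 := by
      have : 0 ≤ min (ρ ⟨x, hx⟩ ⟨y, hy⟩) (2 ^ (Int.log 2 (D x))) :=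
        le_min (hρI.nonneg _ _) (by positivity)
      linarith
    have h8 := mul_le_mul_of_nonneg_right h3 h7
    rw [one_mul] at h8
    show min (pathDist G ℓ x y) (D x + D y) / 8 - 2 * |D x - D y| ≤ _
    linarith
  · -- outside
    intro x y hx hy
    refine Finset.sum_eq_zero fun j _ => ?_
    rw [hR3 j x y hy, hφ0 j x hx, mul_zero]

end Vale.Agent.P235

end

section

namespace Vale.Agent.P235

open MeasureTheory

section comps

variable {V : Type} [Finite V] {G : SimpleGraph V} {X : Set V} {ℓ : Sym2 V → ℝ} {ν : V → V}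

/-- the combined maps of all components -/
theorem comps_embed {C : ℝ} (hC : 0 < C) (hc : G.Connected) (hℓ : ∀ e ∈ G.edgeSet, 0 < ℓ e)
    (hν : Near G ℓ X ν)
    (hcomp : ∀ u ∉ X, DistortionLE (G.induce (compSet G X u)) C) :
    ∃ ρ : V → V → ℝ, IsL1 ρ ∧ (∀ x y, ρ x y ≤ (96 * C + 112) * pathDist G ℓ x y) ∧
      (∀ x y, min (pathDist G ℓ x y) (pathDist G ℓ x (ν x) + pathDist G ℓ y (ν y)) ≤ ρ x y) := by
  classical
  have hd := pathDist_isMet hc hℓ
  set D : V → ℝ := fun x => pathDist G ℓ x (ν x) with hD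
  let Q := Quotient (compSetoid G X)
  have : Fintype Q := Fintype.ofFinite Q
  have : Fintype V := Fintype.ofFinite V
  let J : Finset ℤ := Finset.univ.image fun x : V => Int.log 2 (D x)
  have hJ : ∀ x : V, Int.log 2 (D x) ∈ J := fun x =>
    Finset.mem_image_of_mem _ (Finset.mem_univ x)
  have hQ := fun q : Q => comp_one hC hc hℓ hν q.out.2 (hcomp q.out.1 q.out.2) J
  choose r hrI hr1 hr2 hr3 hr4 hr5 using hQ
  have hmk : ∀ (v : V) (hv : v ∉ X), v ∈ compSet G X (⟦⟨v, hv⟩⟧ : Q).out.1 := by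
    intro v hv
    exact Quotient.mk_out (s := compSetoid G X) ⟨v, hv⟩
  have huniq : ∀ (q : Q) (v : V) (hv : v ∉ X), v ∈ compSet G X q.out.1 → q = ⟦⟨v, hv⟩⟧ := by
    intro q v hv h
    have h1 : (⟦q.out⟧ : Q) = ⟦⟨v, hv⟩⟧ := Quotient.sound h
    rwa [Quotient.out_eq] at h1
  have hrX : ∀ (q : Q) (v : V), v ∈ X → v ∉ compSet G X q.out.1 := fun q v hv h =>
    ReachOff.right h hv
  let σ : V → V → ℝ := fun x y => ∑ q : Q, r q x y
  have hσI : IsL1 σ := IsL1.sum _ (fun q => r q) fun q _ => hrI q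
  have hDI : IsL1 (fun x y => 2 * |D x - D y|) := (isL1_line D).smul (by norm_num)
  have hI := (hσI.add hDI).smul (by norm_num : (0 : ℝ) ≤ 8)
  have hterm : ∀ (q : Q) x y, 0 ≤ r q x y := fun q x y => (hrI q).nonneg x y
  have hDl : ∀ x y, |D x - D y| ≤ pathDist G ℓ x y := by
    intro x y
    have h1 := hν.lip hc hℓ x y
    have h2 := hν.lip hc hℓ y x
    rw [hd.symm y x] at h2
    rw [abs_le]; constructor <;> (simp only [hD]; linarith)
  refine ⟨_, hI, ?_, ?_⟩
  · have hK : 0 < 96 * C + 112 := by positivity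
    refine pathDist_semi hc hK (fun x => hI.self x) (fun x y z => hI.tri x y z) ?_
    have hone : ∀ u v, u ∉ X → G.Adj u v → σ u v ≤ 12 * (C + 1) * ℓ s(u, v) := by
      intro u v hu huv
      have hsum : σ u v = r ⟦⟨u, hu⟩⟧ u v := by
        refine Finset.sum_eq_single _ (fun q _ hq => ?_) (fun h => absurd (Finset.mem_univ _) h)
        have h1 : u ∉ compSet G X q.out.1 := fun h => hq (huniq q u hu h)
        have h2 : v ∉ compSet G X q.out.1 := fun h =>
          h1 (ReachOff.trans h (ReachOff.adj (ReachOff.right h) hu huv.symm))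
        exact hr5 q u v h1 h2
      rw [hsum]
      by_cases hv : v ∈ X
      · refine (hr2 _ u v (hmk u hu) (hrX _ v hv)).trans ?_
        have h1 : pathDist G ℓ u (ν u) ≤ ℓ s(u, v) := (hν.le u v hv).trans (pathDist_adj hℓ huv)
        have h2 : 0 < ℓ s(u, v) := hℓ _ (G.mem_edgeSet.mpr huv)
        have h3 : 0 < C * ℓ s(u, v) := mul_pos hC h2
        nlinarith
      · exact hr1 _ u v (hmk u hu)
          (ReachOff.trans (hmk u hu) (ReachOff.adj hu hv huv)) huv
    intro u v huv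
    have h0 : 0 < ℓ s(u, v) := hℓ _ (G.mem_edgeSet.mpr huv)
    have h1 : σ u v ≤ 12 * (C + 1) * ℓ s(u, v) := by
      by_cases hu : u ∈ X
      · by_cases hv : v ∈ X
        · have hz : σ u v = 0 := Finset.sum_eq_zero fun q _ => hr5 q u v (hrX q u hu) (hrX q v hv)
          rw [hz]
          positivity
        · rw [hσI.symm, Sym2.eq_swap]
          exact hone v u hv huv.symm
      · exact hone u v hu huv
    have h2 := (hDl u v).trans (pathDist_adj hℓ huv)
    show 8 * (σ u v + 2 * |D u - D v|) ≤ _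
    linarith
  · -- lower bound
    have hsingle : ∀ (q : Q) x y, r q x y ≤ σ x y := fun q x y =>
      Finset.single_le_sum (f := fun q => r q x y) (fun q _ => hterm q x y)
        (Finset.mem_univ q)
    have hD0 : ∀ x, 0 ≤ D x := fun x => hd.nonneg _ _
    have hlow1 : ∀ x y, x ∉ X → y ∈ X → min (pathDist G ℓ x y) (D x + D y) ≤
        8 * (σ x y + 2 * |D x - D y|) := by
      intro x y hx hy
      have h1 := hr3 _ x y (hmk x hx) (hrX _ y hy) (hJ x)
      have h2 := hsingle ⟦⟨x, hx⟩⟧ x y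
      have h3 : D y = 0 := by simp only [hD]; rw [hν.self y hy, hd.self]
      have h4 := min_le_right (pathDist G ℓ x y) (D x + D y)
      have h5 : 0 ≤ |D x - D y| := abs_nonneg _
      have h6 := hD0 x
      have h7 : D x / 2 ≤ σ x y := h1.trans h2
      linarith
    have hlow2 : ∀ x y, x ∉ X → y ∉ X → D y ≤ D x → min (pathDist G ℓ x y) (D x + D y) ≤
        8 * (σ x y + 2 * |D x - D y|) := by
      intro x y hx hy hle
      by_cases hxy : y ∈ compSet G X (⟦⟨x, hx⟩⟧ : Q).out.1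
      · have h1 := hr4 _ x y (hmk x hx) hxy (hJ x) hle
        have h2 := hsingle ⟦⟨x, hx⟩⟧ x y
        have h3 : min (pathDist G ℓ x y) (D x + D y) / 8 - 2 * |D x - D y| ≤ σ x y := h1.trans h2
        linarith
      · have hne : (⟦⟨x, hx⟩⟧ : Q) ≠ ⟦⟨y, hy⟩⟧ := by
          intro h
          apply hxy
          rw [h]
          exact hmk y hy
        have hyx : x ∉ compSet G X (⟦⟨y, hy⟩⟧ : Q).out.1 := fun h => hne (huniq _ x hx h).symm
        have h1 : ∑ q ∈ ({⟦⟨x, hx⟩⟧, ⟦⟨y, hy⟩⟧} : Finset Q), r q x y ≤ σ x y :=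
          Finset.sum_le_univ_sum_of_nonneg fun q => hterm q x y
        rw [Finset.sum_pair hne] at h1
        have h2 := hr3 _ x y (hmk x hx) hxy (hJ x)
        have h3 := hr3 _ y x (hmk y hy) hyx (hJ y)
        rw [(hrI _).symm y x] at h3
        have h4 := min_le_right (pathDist G ℓ x y) (D x + D y)
        have h5 : 0 ≤ |D x - D y| := abs_nonneg _
        have h6 := hD0 x
        have h7 := hD0 y
        have h8 : D x / 2 + D y / 2 ≤ σ x y := (add_le_add h2 h3).trans h1
        linarith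
    intro x y
    show min (pathDist G ℓ x y) (D x + D y) ≤ 8 * (σ x y + 2 * |D x - D y|)
    have hswap : ∀ x y, min (pathDist G ℓ y x) (D y + D x) ≤ 8 * (σ y x + 2 * |D y - D x|) →
        min (pathDist G ℓ x y) (D x + D y) ≤ 8 * (σ x y + 2 * |D x - D y|) := by
      intro x y h
      rwa [hd.symm y x, add_comm (D y), hσI.symm y x, abs_sub_comm (D y)] at h
    by_cases hx : x ∈ X
    · by_cases hy : y ∈ X
      · have h3 : D y = 0 := by simp only [hD]; rw [hν.self y hy, hd.self]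
        have h4 : D x = 0 := by simp only [hD]; rw [hν.self x hx, hd.self]
        have h5 := hσI.nonneg x y
        have h6 := min_le_right (pathDist G ℓ x y) (D x + D y)
        have h7 : 0 ≤ |D x - D y| := abs_nonneg _
        linarith
      · exact hswap x y (hlow1 y x hy hx)
    · by_cases hy : y ∈ X
      · exact hlow1 x y hx hy
      · rcases le_total (D y) (D x) with h | h
        · exact hlow2 x y hx hy h
        · exact hswap x y (hlow2 y x hy hx h)

end comps

/-- The composition theorem: torso and components. -/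
theorem distortion_compose2 {w : ℕ} {C : ℝ} (hC : 1 ≤ C) {V : Type} [Finite V]
    {G : SimpleGraph V} (hc : G.Connected) {X : Set V} (hX : X.Nonempty)
    (hw : ∀ u ∉ X, (attach G X u).ncard ≤ w) (htorso : DistortionLE (torso G X) C)
    (hcomp : ∀ u ∉ X, DistortionLE (G.induce (compSet G X u)) C) :
    DistortionLE G ((24 * w + 9) * C + (1 + 3 * C) * (96 * C + 112)) := by
  classical
  intro ℓ hℓ
  have hC0 : 0 < C := one_pos.trans_le hC
  have hd := pathDist_isMet hc hℓ
  obtain ⟨ν, hν⟩ := exists_near hc hℓ hX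
  have hpos : ∀ e ∈ (torso G X).edgeSet, 0 < torsoLen (pathDist G ℓ) X e := by
    intro e
    induction e using Sym2.inductionOn with
    | hf a b =>
      intro he
      rw [torsoLen_mk hd.symm]
      exact hd.pos _ _ fun e => (SimpleGraph.mem_edgeSet _ |>.mp he).1 (Subtype.ext e)
  obtain ⟨Ω, _, μ, f, hf⟩ := htorso _ hpos
  simp only [torso_dist hc hℓ hX] at hf
  let f' : V → Lp ℝ 1 μ := fun v => if h : v ∈ X then f ⟨v, h⟩ else 0
  have hf' : ∀ x ∈ X, ∀ y ∈ X, pathDist G ℓ x y ≤ ‖f' x - f' y‖ ∧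
      ‖f' x - f' y‖ ≤ C * pathDist G ℓ x y := by
    intro x hx y hy
    have := hf ⟨x, hx⟩ ⟨y, hy⟩
    simpa [f', hx, hy] using this
  have hfu : ∀ x ∈ X, ∀ y ∈ X, ‖f' x - f' y‖ ≤ C * pathDist G ℓ x y :=
    fun x hx y hy => (hf' x hx y hy).2
  obtain ⟨ρ, hρI, hρu, hρl⟩ := comps_embed hC0 hc hℓ hν hcomp
  let σ : V → V → ℝ := fun x y => ‖ext G ℓ X ν f' x - ext G ℓ X ν f' y‖
  have hσL : L1S σ := ⟨Ω, inferInstance, μ, ext G ℓ X ν f', fun _ _ => rfl⟩
  have hK1 : 0 < (24 * (w : ℝ) + 9) * C := by positivity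
  have hσu : ∀ x y, σ x y ≤ (24 * w + 9) * C * pathDist G ℓ x y := by
    refine pathDist_semi hc hK1 (fun x => by simp [σ])
      (fun x y z => norm_sub_le_norm_sub_add_norm_sub _ _ _) (fun u v huv => ?_)
    refine (ext_edge hc hℓ hν hC0.le hfu hw huv).trans ?_
    exact mul_le_mul_of_nonneg_left (pathDist_adj hℓ huv) hK1.le
  refine (hσL.isL1.add (hρI.smul (by positivity : (0 : ℝ) ≤ 1 + 3 * C))).embeds (fun x y => ?_)
    (fun x y => ?_)
  · have h1 := ext_near hc hℓ hν hC0.le hfu x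
    have h2 := ext_near hc hℓ hν hC0.le hfu y
    have h3 := (hf' (ν x) (hν.mem x) (ν y) (hν.mem y)).1
    have h4 : pathDist G ℓ x y ≤
        pathDist G ℓ x (ν x) + pathDist G ℓ (ν x) (ν y) + pathDist G ℓ y (ν y) := by
      have h5 := hd.tri x (ν x) y
      have h6 := hd.tri (ν x) (ν y) y
      rw [hd.symm (ν y) y] at h6
      linarith
    have h7 : ‖f' (ν x) - f' (ν y)‖ ≤ ‖ext G ℓ X ν f' x - f' (ν x)‖ +
        ‖ext G ℓ X ν f' x - ext G ℓ X ν f' y‖ + ‖ext G ℓ X ν f' y - f' (ν y)‖ := by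
      have : f' (ν x) - f' (ν y) = -(ext G ℓ X ν f' x - f' (ν x)) +
        (ext G ℓ X ν f' x - ext G ℓ X ν f' y) + (ext G ℓ X ν f' y - f' (ν y)) := by abel
      rw [this]
      refine (norm_add_le _ _).trans (add_le_add ((norm_add_le _ _).trans ?_) le_rfl)
      rw [norm_neg]
    have hl := hρl x y
    have hn := hρI.nonneg x y
    show pathDist G ℓ x y ≤ ‖ext G ℓ X ν f' x - ext G ℓ X ν f' y‖ + (1 + 3 * C) * ρ x y
    have hσn : 0 ≤ ‖ext G ℓ X ν f' x - ext G ℓ X ν f' y‖ := norm_nonneg _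
    rcases min_le_iff.mp hl with h | h
    · have : 0 ≤ 3 * C * ρ x y := by positivity
      linarith
    · have : (1 + 3 * C) * (pathDist G ℓ x (ν x) + pathDist G ℓ y (ν y)) ≤
          (1 + 3 * C) * ρ x y := mul_le_mul_of_nonneg_left h (by positivity)
      linarith
  · have h1 := hσu x y
    have h2 : (1 + 3 * C) * ρ x y ≤ (1 + 3 * C) * ((96 * C + 112) * pathDist G ℓ x y) :=
      mul_le_mul_of_nonneg_left (hρu x y) (by positivity)
    show σ x y + (1 + 3 * C) * ρ x y ≤ _
    linarith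

end Vale.Agent.P235

end

section

namespace Vale.Agent.P235

variable {V : Type} {G : SimpleGraph V}

/-- in a connected graph with cut vertex `v`, each side is connected -/
theorem side_connected (hc : G.Connected) {A B : Set V} {v : V} (hU : A ∪ B = Set.univ)
    (hI : A ∩ B = {v}) (hn : ∀ a b, a ∉ B → b ∉ A → ¬ G.Adj a b) : (G.induce A).Connected := by
  have hv : v ∈ A ∩ B := by rw [hI]; rfl
  have key : ∀ (a : V) (p : G.Walk a v) (ha : a ∈ A),
      (G.induce A).Reachable ⟨a, ha⟩ ⟨v, hv.1⟩ := by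
    intro a p
    induction p with
    | nil => intro _; exact SimpleGraph.Reachable.refl _
    | @cons a b v h p ih =>
      intro ha
      by_cases hb : b ∈ A
      · have h1 : (G.induce A).Adj ⟨a, ha⟩ ⟨b, hb⟩ := h
        exact h1.reachable.trans (ih hI hv hb)
      · have haB : a ∈ B := by
          by_contra haB
          exact hn a b haB hb h
        have : a ∈ A ∩ B := ⟨ha, haB⟩
        rw [hI] at this
        have hav : a = v := this
        subst hav
        exact SimpleGraph.Reachable.refl _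
  rw [SimpleGraph.connected_iff]
  refine ⟨?_, ⟨⟨v, hv.1⟩⟩⟩
  rintro ⟨a, ha⟩ ⟨b, hb⟩
  obtain ⟨p⟩ := hc a v
  obtain ⟨q⟩ := hc b v
  exact (key a p ha).trans (key b q hb).symm

theorem induced_embed [Finite V] {C : ℝ} (hC : 0 < C) (hc : G.Connected) {ℓ : Sym2 V → ℝ}
    (hℓ : ∀ e ∈ G.edgeSet, 0 < ℓ e) {A : Set V} (hA : (G.induce A).Connected)
    (h : DistortionLE (G.induce A) C) :
    ∃ ρ : A → A → ℝ, IsL1 ρ ∧ (∀ x y : A, pathDist G ℓ x y ≤ ρ x y) ∧
      (∀ x y : A, G.Adj x y → ρ x y ≤ C * ℓ s(x.1, y.1)) := by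
  have hd := pathDist_isMet hc hℓ
  let ℓ' : Sym2 A → ℝ := fun e => ℓ (e.map Subtype.val)
  have hℓ'mk : ∀ x y : A, ℓ' s(x, y) = ℓ s(x.1, y.1) := fun x y => rfl
  have hℓ' : ∀ e ∈ (G.induce A).edgeSet, 0 < ℓ' e := by
    intro e
    induction e using Sym2.inductionOn with
    | hf a b =>
      intro he
      rw [hℓ'mk]
      exact hℓ _ (G.mem_edgeSet.mpr (SimpleGraph.mem_edgeSet _ |>.mp he))
  obtain ⟨ρ, hρL, hρ1, hρ2, -⟩ := (h ℓ' hℓ').toL1S
  refine ⟨ρ, hρL.isL1, fun x y => ?_, fun x y hxy => ?_⟩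
  · refine le_trans ?_ (hρ1 x y)
    have h := pathDist_gen (ℓ := ℓ') hA (f := fun z : A => pathDist G ℓ x z) (fun a b hab => by
      rw [hℓ'mk]
      have h1 := pathDist_adj hℓ (show G.Adj a b from hab)
      have h2 := hd.tri x a b
      have h3 := hd.tri x b a
      rw [hd.symm b a] at h3
      rw [abs_le]; constructor <;> linarith) x y
    simp only [hd.self, zero_sub, abs_neg] at h
    exact (le_abs_self _).trans h
  · refine (hρ2 x y).trans (mul_le_mul_of_nonneg_left ?_ hC.le)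
    exact (pathDist_adj hℓ' (show (G.induce A).Adj x y from hxy))

/-- gluing at a vertex does not increase `c₁` -/
theorem distortion_vertexSum [Finite V] {C : ℝ} (hC : 0 < C) (hc : G.Connected) {A B : Set V}
    {v : V} (hU : A ∪ B = Set.univ) (hI : A ∩ B = {v})
    (hn : ∀ a b, a ∉ B → b ∉ A → ¬ G.Adj a b) (hA : DistortionLE (G.induce A) C)
    (hB : DistortionLE (G.induce B) C) : DistortionLE G C := by
  classical
  intro ℓ hℓ
  have hd := pathDist_isMet hc hℓ
  have hv : v ∈ A ∩ B := by rw [hI]; rfl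
  have hcA := side_connected hc hU hI hn
  have hcB : (G.induce B).Connected := side_connected hc (by rw [Set.union_comm]; exact hU)
    (by rw [Set.inter_comm]; exact hI) (fun a b ha hb h => hn b a hb ha h.symm)
  obtain ⟨ρA, hρA, hA1, hA2⟩ := induced_embed hC hc hℓ hcA hA
  obtain ⟨ρB, hρB, hB1, hB2⟩ := induced_embed hC hc hℓ hcB hB
  let πA : V → A := fun x => if h : x ∈ A then ⟨x, h⟩ else ⟨v, hv.1⟩
  let πB : V → B := fun x => if h : x ∈ B then ⟨x, h⟩ else ⟨v, hv.2⟩
  have hπA : ∀ x (h : x ∈ A), πA x = ⟨x, h⟩ := fun x h => dif_pos h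
  have hπB : ∀ x (h : x ∈ B), πB x = ⟨x, h⟩ := fun x h => dif_pos h
  have hπA' : ∀ x, x ∈ B → πA x = ⟨v, hv.1⟩ := by
    intro x hx
    by_cases h : x ∈ A
    · have h1 : x ∈ A ∩ B := ⟨h, hx⟩
      rw [hI] at h1
      rw [hπA x h]
      exact Subtype.ext h1
    · exact dif_neg h
  have hπB' : ∀ x, x ∈ A → πB x = ⟨v, hv.2⟩ := by
    intro x hx
    by_cases h : x ∈ B
    · have h1 : x ∈ A ∩ B := ⟨hx, h⟩
      rw [hI] at h1
      rw [hπB x h]
      exact Subtype.ext h1
    · exact dif_neg h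
  have hor : ∀ x : V, x ∈ A ∨ x ∈ B := by
    intro x
    have : x ∈ A ∪ B := by rw [hU]; trivial
    exact this
  have hLL := (hρA.comap πA).add (hρB.comap πB)
  refine hLL.embeds ?_ ?_
  · intro x y
    show pathDist G ℓ x y ≤ ρA (πA x) (πA y) + ρB (πB x) (πB y)
    have nA := hρA.nonneg (πA x) (πA y)
    have nB := hρB.nonneg (πB x) (πB y)
    rcases hor x with hx | hx <;> rcases hor y with hy | hy
    · have h1 := hA1 (πA x) (πA y)
      have e1 : ((πA x : A) : V) = x := by rw [hπA x hx]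
      have e2 : ((πA y : A) : V) = y := by rw [hπA y hy]
      rw [e1, e2] at h1
      linarith
    · have h1 := hA1 (πA x) (πA y)
      have h2 := hB1 (πB x) (πB y)
      have e1 : ((πA x : A) : V) = x := by rw [hπA x hx]
      have e2 : ((πA y : A) : V) = v := by rw [hπA' y hy]
      have e3 : ((πB x : B) : V) = v := by rw [hπB' x hx]
      have e4 : ((πB y : B) : V) = y := by rw [hπB y hy]
      rw [e1, e2] at h1
      rw [e3, e4] at h2
      linarith [hd.tri x v y]
    · have h1 := hA1 (πA x) (πA y)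
      have h2 := hB1 (πB x) (πB y)
      have e1 : ((πA x : A) : V) = v := by rw [hπA' x hx]
      have e2 : ((πA y : A) : V) = y := by rw [hπA y hy]
      have e3 : ((πB x : B) : V) = x := by rw [hπB x hx]
      have e4 : ((πB y : B) : V) = v := by rw [hπB' y hy]
      rw [e1, e2] at h1
      rw [e3, e4] at h2
      linarith [hd.tri x v y]
    · have h1 := hB1 (πB x) (πB y)
      have e1 : ((πB x : B) : V) = x := by rw [hπB x hx]
      have e2 : ((πB y : B) : V) = y := by rw [hπB y hy]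
      rw [e1, e2] at h1
      linarith
  · refine pathDist_semi hc hC (fun x => hLL.self x) (fun x y z => hLL.tri x y z) ?_
    intro x y hxy
    show ρA (πA x) (πA y) + ρB (πB x) (πB y) ≤ _
    have hside : (x ∈ A ∧ y ∈ A) ∨ (x ∈ B ∧ y ∈ B) := by
      by_contra hcon
      rw [not_or, not_and_or, not_and_or] at hcon
      obtain ⟨h1, h2⟩ := hcon
      rcases h1 with h1 | h1 <;> rcases h2 with h2 | h2
      · exact (hor x).elim h1 h2
      · exact hn y x h2 h1 hxy.symm
      · exact hn x y h2 h1 hxy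
      · exact (hor y).elim h1 h2
    rcases hside with ⟨hx, hy⟩ | ⟨hx, hy⟩
    · rw [hπB' x hx, hπB' y hy, hρB.self, add_zero, hπA x hx, hπA y hy]
      exact hA2 ⟨x, hx⟩ ⟨y, hy⟩ hxy
    · rw [hπA' x hx, hπA' y hy, hρA.self, zero_add, hπB x hx, hπB y hy]
      exact hB2 ⟨x, hx⟩ ⟨y, hy⟩ hxy

end Vale.Agent.P235

end

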