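import Vale.Agent.P235.Defs

namespace Vale.Agent.P235

/-- `G` has treewidth at most `k`: there is a finite tree `T` with bags `B t ⊆ V`, `|B t| ≤ k + 1`,
such that every vertex lies in some bag, every edge lies in some bag, and for every vertex `v` the
nodes whose bags contain `v` form a (connected) subtree. -/
def TreewidthLE {V : Type} (G : SimpleGraph V) (k : ℕ) : Prop :=
  ∃ (ι : Type) (_ : Finite ι) (T : SimpleGraph ι) (B : ι → Finset V),
    T.IsTree ∧
    (∀ v, ∃ t, v ∈ B t) ∧
    (∀ u v, G.Adj u v → ∃ t, u ∈ B t ∧ v ∈ B t) ∧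
    (∀ v, (T.induce {t | v ∈ B t}).Preconnected) ∧
    (∀ t, (B t).card ≤ k + 1)

/-- Some walk of `G` from `u` to `v` avoids `X`. -/
def ReachOff {V : Type} (G : SimpleGraph V) (X : Set V) (u v : V) : Prop :=
  ∃ p : G.Walk u v, ∀ a ∈ p.support, a ∉ X

/-- The vertex set of the component of `G - X` containing `u`. -/
def compSet {V : Type} (G : SimpleGraph V) (X : Set V) (u : V) : Set V := {v | ReachOff G X u v}

/-- The vertices of `X` with a neighbour in the component of `G - X` containing `u`. -/
def attach {V : Type} (G : SimpleGraph V) (X : Set V) (u : V) : Set V :=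
  {x | x ∈ X ∧ ∃ v ∈ compSet G X u, G.Adj v x}

/-- The torso of `X` in `G`: the graph on `X` in which two vertices are adjacent iff they are
adjacent in `G` or both have neighbours in the same component of `G - X`. -/
def torso {V : Type} (G : SimpleGraph V) (X : Set V) : SimpleGraph X where
  Adj x y := x ≠ y ∧ (G.Adj x y ∨ ∃ u, x.1 ∈ attach G X u ∧ y.1 ∈ attach G X u)
  symm := ⟨fun _ _ ⟨h, h'⟩ => ⟨h.symm, h'.imp (fun h => h.symm) fun ⟨u, h1, h2⟩ => ⟨u, h2, h1⟩⟩⟩
  loopless := ⟨fun _ h => h.1 rfl⟩

/-- `B 0, …, B (n-1)` is a path decomposition of `G` with bags of arbitrary size in which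
consecutive bags share at most `w` vertices. -/
structure PathDec {V : Type} (G : SimpleGraph V) (w : ℕ) {n : ℕ} (B : Fin n → Set V) : Prop where
  cover : ∀ v, ∃ i, v ∈ B i
  edge : ∀ u v, G.Adj u v → ∃ i, u ∈ B i ∧ v ∈ B i
  conv : ∀ i j k, i ≤ j → j ≤ k → ∀ v, v ∈ B i → v ∈ B k → v ∈ B j
  adh : ∀ i k : Fin n, k.val = i.val + 1 → (B i ∩ B k).ncard ≤ w

/-- `Built w j G`: base graphs (round `0`) are the graphs of treewidth at most `3` and those of
`EdgeSum w`; every round is closed under gluing two graphs at one vertex; and `G` is allowed in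
round `j + 1` if there is a nonempty vertex set `X` such that every component of `G - X` has at
most `w` neighbours in `X`, the torso of `X` is allowed in round `j`, and all components of `G - X`
are allowed in round `j`; or if `G` has a path decomposition, of any length and with bags of any
size, in which consecutive bags share at most `w` vertices and, for every bag, all components of
the subgraph induced on that bag are allowed in round `j`. -/
inductive Built (w : ℕ) : ℕ → ∀ {V : Type}, SimpleGraph V → Prop
  | tw {V : Type} {G : SimpleGraph V} : TreewidthLE G 3 → Built w 0 G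
  | edgeSum {V : Type} {G : SimpleGraph V} : EdgeSum w G → Built w 0 G
  | lift {j : ℕ} {V : Type} {G : SimpleGraph V} : Built w j G → Built w (j + 1) G
  | vertexSum {j : ℕ} {V : Type} {G : SimpleGraph V} {A B : Set V} {v : V} :
      A ∪ B = Set.univ → A ∩ B = {v} → (∀ a b, a ∉ B → b ∉ A → ¬ G.Adj a b) →
      Built w j (G.induce A) → Built w j (G.induce B) → Built w j G
  | compose {j : ℕ} {V : Type} {G : SimpleGraph V} {X : Set V} : X.Nonempty →
      (∀ u ∉ X, (attach G X u).ncard ≤ w) → Built w j (torso G X) →
      (∀ u ∉ X, Built w j (G.induce (compSet G X u))) → Built w (j + 1) G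
  | pathSum {j n : ℕ} {V : Type} {G : SimpleGraph V} {B : Fin n → Set V} : PathDec G w B →
      (∀ i, ∀ u ∈ B i, Built w j (G.induce (compSet G (B i)ᶜ u))) → Built w (j + 1) G

end Vale.Agent.P235
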