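import Vale.Agent.P235.Comp.PathSum

section

namespace Vale.Agent.P235

theorem treewidth_three' :
    ∃ C : ℝ, ∀ (V : Type) [Finite V] (G : SimpleGraph V), G.Connected →
      TreewidthLE G 3 → DistortionLE G C :=
  Vale.Agent.P235T3.treewidth_three

/-- constant of the composition theorem -/
noncomputable def compK (w : ℕ) (C : ℝ) : ℝ := (24 * w + 9) * C + (1 + 3 * C) * (96 * C + 112)

theorem le_compK (w : ℕ) {C : ℝ} (hC : 1 ≤ C) : C ≤ compK w C := by
  unfold compK
  have h1 : (0 : ℝ) ≤ w := Nat.cast_nonneg w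
  have h2 : 0 ≤ (w : ℝ) * C := by positivity
  have h3 : 0 ≤ (1 + 3 * C) * (96 * C + 112) := by positivity
  nlinarith

/-- The composition theorem: `c₁(G)` is bounded in terms of `w`, `c₁` of the torso of `X` and `c₁`
of the components of `G - X`. -/
theorem composition (w : ℕ) (C : ℝ) :
    ∃ K : ℝ, ∀ (V : Type) [Finite V] (G : SimpleGraph V), G.Connected →
      ∀ X : Set V, X.Nonempty → (∀ u ∉ X, (attach G X u).ncard ≤ w) →
      DistortionLE (torso G X) C → (∀ u ∉ X, DistortionLE (G.induce (compSet G X u)) C) →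
      DistortionLE G K :=
  ⟨compK w (max 1 C), fun _ _ _ hc _ hX hw ht hk =>
    distortion_compose2 (le_max_left _ _) hc hX hw (ht.mono (le_max_right _ _))
      fun u hu => (hk u hu).mono (le_max_right _ _)⟩

/-- Path sums of arbitrary length. -/
theorem pathSums (p : ℕ) (C : ℝ) :
    ∃ K : ℝ, ∀ (V : Type) [Finite V] (G : SimpleGraph V), G.Connected →
      ∀ (n : ℕ) (B : Fin n → Set V), PathDec G p B →
      (∀ i, ∀ u ∈ B i, DistortionLE (G.induce (compSet G (B i)ᶜ u)) C) → DistortionLE G K :=
  ⟨psK p (max 1 C), fun V _ G hc n B hB hD =>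
    distortion_pathSum (le_max_left _ _) p V G hc n B ⟨hB.cover, hB.edge, hB.conv⟩ hB.adh
      fun i u hu => (hD i u hu).mono (le_max_right _ _)⟩

/-- Removal of one shortest path. -/
theorem geodesics (C : ℝ) :
    ∃ K : ℝ, ∀ (V : Type) [Finite V] (G : SimpleGraph V), G.Connected →
      (∀ ℓ : Sym2 V → ℝ, (∀ e ∈ G.edgeSet, 0 < ℓ e) → ∃ (x y : V) (q : G.Walk x y),
        (q.edges.map ℓ).sum = pathDist G ℓ x y ∧
        ∀ u ∉ q.support, DistortionLE (G.induce (compSet G {v | v ∈ q.support} u)) C) →
      DistortionLE G K :=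
  ⟨1 + 2 * (96 * max 1 C + 112), fun V _ G hc h =>
    distortion_geodesic (one_pos.trans_le (le_max_left _ _)) hc fun ℓ hℓ => by
      obtain ⟨x, y, q, hq, hu⟩ := h ℓ hℓ
      exact ⟨x, y, q, hq, fun u hu' => (hu u hu').mono (le_max_right _ _)⟩⟩

theorem built_bounded (w j : ℕ) :
    ∃ C : ℝ, ∀ (V : Type) [Finite V] (G : SimpleGraph V), G.Connected →
      Built w j G → DistortionLE G C := by
  obtain ⟨C1, h1⟩ := treewidth_three'
  obtain ⟨C2, h2⟩ := edgeSum_pathwidth w
  let c : ℕ → ℝ := fun j => Nat.rec (max 1 (max C1 C2)) (fun _ C => max (compK w C) (psK w C)) j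
  have hc0 : c 0 = max 1 (max C1 C2) := rfl
  have hcs : ∀ j, c (j + 1) = max (compK w (c j)) (psK w (c j)) := fun j => rfl
  have hc1 : ∀ j, 1 ≤ c j := by
    intro j
    induction j with
    | zero => exact le_max_left _ _
    | succ j ih => exact ih.trans (by rw [hcs]; exact (le_compK w ih).trans (le_max_left _ _))
  refine ⟨c j, fun V _ G hconn hG => ?_⟩
  revert hconn
  have key : ∀ {j : ℕ} {V : Type} {G : SimpleGraph V}, Built w j G → Finite V → G.Connected →
      DistortionLE G (c j) := by
    intro j V G hG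
    induction hG with
    | tw hG =>
      intro _ hconn
      exact (h1 _ _ hconn hG).mono ((le_max_left _ _).trans (le_max_right _ _))
    | edgeSum hG =>
      intro _ hconn
      exact (h2 _ _ hconn hG).mono ((le_max_right _ _).trans (le_max_right _ _))
    | @lift j V G hG ih =>
      intro hfin hconn
      exact (ih hfin hconn).mono ((le_compK w (hc1 j)).trans (le_max_left _ _))
    | @vertexSum j V G A B v hU hI hn hA hB ihA ihB =>
      intro hfin hconn
      have hcA := side_connected hconn hU hI hn
      have hcB : (G.induce B).Connected := side_connected hconn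
        (by rw [Set.union_comm]; exact hU) (by rw [Set.inter_comm]; exact hI)
        (fun a b ha hb h => hn b a hb ha h.symm)
      exact distortion_vertexSum (one_pos.trans_le (hc1 j)) hconn hU hI hn
        (ihA inferInstance hcA) (ihB inferInstance hcB)
    | @compose j V G X hX hw ht hk iht ihk =>
      intro hfin hconn
      exact (distortion_compose2 (hc1 j) hconn hX hw (iht inferInstance (torso_connected hconn hX))
        fun u hu => ihk u hu inferInstance (comp_connected hu)).mono (le_max_left _ _)
    | @pathSum j n V G B hB hk ihk =>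
      intro hfin hconn
      exact (distortion_pathSum (hc1 j) w V G hconn n B ⟨hB.cover, hB.edge, hB.conv⟩ hB.adh
        fun i u hu => ihk i u hu inferInstance (comp_connected (by simpa using hu))).mono
        (le_max_right _ _)
  exact key hG inferInstance

end Vale.Agent.P235

end

section

namespace Vale.Agent.P235

theorem TreewidthLE.comap {V W : Type} [Finite W] {G : SimpleGraph V} {G' : SimpleGraph W} {k : ℕ}
    (f : W → V) (hf : Function.Injective f) (hadj : ∀ a b, G'.Adj a b → G.Adj (f a) (f b))
    (h : TreewidthLE G k) : TreewidthLE G' k := by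
  classical
  have : Fintype W := Fintype.ofFinite W
  obtain ⟨ι, hι, T, B, hT, hv, he, hcon, hcard⟩ := h
  refine ⟨ι, hι, T, fun t => Finset.univ.filter fun a => f a ∈ B t, hT, ?_, ?_, ?_, ?_⟩
  · intro a
    obtain ⟨t, ht⟩ := hv (f a)
    exact ⟨t, by simpa using ht⟩
  · intro a b hab
    obtain ⟨t, h1, h2⟩ := he _ _ (hadj a b hab)
    exact ⟨t, by simpa using h1, by simpa using h2⟩
  · intro a
    have : {t | a ∈ Finset.univ.filter fun a => f a ∈ B t} = {t | f a ∈ B t} := by
      ext t; simp
    rw [this]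
    exact hcon (f a)
  · intro t
    refine le_trans ?_ (hcard t)
    exact Finset.card_le_card_of_injOn f (fun a ha => by simpa using ha) hf.injOn

theorem pathwidth_of_card {V : Type} [Finite V] (G : SimpleGraph V) {p : ℕ}
    (h : Nat.card V ≤ p + 1) : PathwidthLE G p := by
  classical
  have : Fintype V := Fintype.ofFinite V
  refine ⟨1, fun _ => Finset.univ, fun v => ⟨0, Finset.mem_univ v⟩,
    fun u v _ => ⟨0, Finset.mem_univ u, Finset.mem_univ v⟩,
    fun _ _ _ _ _ v _ _ => Finset.mem_univ v, fun _ => ?_⟩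
  rw [Finset.card_univ, ← Nat.card_eq_fintype_card]
  exact h

/-- Deleting `t` vertices to reach treewidth `3`. -/
theorem deletion_treewidth (t : ℕ) :
    ∃ C : ℝ, ∀ (V : Type) [Finite V] (G : SimpleGraph V), G.Connected →
      (∃ S : Finset V, S.card ≤ t ∧ TreewidthLE (G.induce {v | v ∉ S}) 3) → DistortionLE G C := by
  classical
  obtain ⟨C, hC⟩ := built_bounded (t + 1) 1
  refine ⟨C, fun V _ G hc ⟨S, hS, hT⟩ => hC V G hc ?_⟩
  obtain ⟨v0⟩ := hc.nonempty
  set X : Set V := ((insert v0 S : Finset V) : Set V) with hX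
  have hXcard : X.ncard ≤ t + 1 := by
    rw [hX, Set.ncard_coe_finset]
    exact (Finset.card_insert_le _ _).trans (by omega)
  have hXfin : X.Finite := Set.toFinite _
  have hne : X.Nonempty := ⟨v0, by rw [hX]; simp⟩
  have hSX : ∀ v ∈ S, v ∈ X := fun v hv => by rw [hX]; simp [hv]
  refine Built.compose hne (fun u _ => ?_) ?_ (fun u hu => ?_)
  · exact (Set.ncard_le_ncard (fun x hx => hx.1) hXfin).trans hXcard
  · refine Built.edgeSum (EdgeSum.base (pathwidth_of_card _ ?_))
    rw [Nat.card_coe_set_eq]
    omega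
  · refine Built.tw (TreewidthLE.comap (G := G.induce {v | v ∉ S})
      (fun a : compSet G X u => ⟨a.1, fun h => ?_⟩) ?_ (fun a b h => h) hT)
    · exact ReachOff.right a.2 (hSX _ h)
    · intro a b hab
      exact Subtype.ext (congrArg (fun z : {v | v ∉ S} => z.1) hab)

end Vale.Agent.P235

end

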