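import Vale.Agent.P235.Comp.Core

namespace Vale.Agent.P235

open SimpleGraph

section removal

variable {V : Type} [Finite V] {G : SimpleGraph V} {X : Set V} {ℓ : Sym2 V → ℝ}

/-- Removal of a set `X` on which some nonexpansive function is isometric. -/
theorem embeds_of_line {C : ℝ} (hC : 0 < C) (hc : G.Connected)
    (hℓ : ∀ e ∈ G.edgeSet, 0 < ℓ e) (hX : X.Nonempty) {f : V → ℝ}
    (hf : ∀ u v, |f u - f v| ≤ pathDist G ℓ u v)
    (hfX : ∀ u ∈ X, ∀ v ∈ X, pathDist G ℓ u v ≤ |f u - f v|)
    (hcomp : ∀ u ∉ X, DistortionLE (G.induce (compSet G X u)) C) :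
    EmbedsL1 (pathDist G ℓ) (1 + 2 * (96 * C + 112)) := by
  have hd := pathDist_isMet hc hℓ
  obtain ⟨ν, hν⟩ := exists_near hc hℓ hX
  obtain ⟨ρ, hρI, hρu, hρl⟩ := comps_embed hC hc hℓ hν hcomp
  have hI := (isL1_line f).add (hρI.smul (by norm_num : (0 : ℝ) ≤ 2))
  refine hI.embeds (fun x y => ?_) (fun x y => ?_)
  · have h1 := hfX (ν x) (hν.mem x) (ν y) (hν.mem y)
    have h2 := hf x (ν x)
    have h3 := hf y (ν y)
    have h4 : pathDist G ℓ x y ≤
        pathDist G ℓ x (ν x) + pathDist G ℓ (ν x) (ν y) + pathDist G ℓ y (ν y) := by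
      have h5 := hd.tri x (ν x) y
      have h6 := hd.tri (ν x) (ν y) y
      rw [hd.symm (ν y) y] at h6
      linarith
    have h7 : |f (ν x) - f (ν y)| ≤ |f x - f (ν x)| + |f x - f y| + |f y - f (ν y)| := by
      have e : f (ν x) - f (ν y) = -(f x - f (ν x)) + (f x - f y) + (f y - f (ν y)) := by ring
      rw [e]
      refine (abs_add_le _ _).trans (add_le_add ((abs_add_le _ _).trans ?_) le_rfl)
      rw [abs_neg]
    have hl := hρl x y
    have hn := hρI.nonneg x y
    have h0 : 0 ≤ |f x - f y| := abs_nonneg _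
    show pathDist G ℓ x y ≤ |f x - f y| + 2 * ρ x y
    rcases min_le_iff.mp hl with h | h <;> linarith
  · have h1 := hf x y
    have h2 := hρu x y
    show |f x - f y| + 2 * ρ x y ≤ _
    linarith

end removal

section geo

variable {V : Type} {G : SimpleGraph V} {ℓ : Sym2 V → ℝ}

theorem sum_edges_append {u v w : V} (p : G.Walk u v) (q : G.Walk v w) :
    ((p.append q).edges.map ℓ).sum = (p.edges.map ℓ).sum + (q.edges.map ℓ).sum := by
  rw [Walk.edges_append, List.map_append, List.sum_append]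

/-- a shortest walk exists -/
theorem exists_geodesic [Finite V] (hc : G.Connected) (hℓ : ∀ e ∈ G.edgeSet, 0 < ℓ e) (x y : V) :
    ∃ p : G.Walk x y, (p.edges.map ℓ).sum = pathDist G ℓ x y := by
  have hw : ∀ {u v : V} (p : G.Walk u v),
      wlen (fun a b => ℓ s(a, b)) p = (p.edges.map ℓ).sum := by
    intro u v p
    induction p with
    | nil => simp [wlen_nil]
    | cons h p ih => rw [wlen_cons, ih, Walk.edges_cons, List.map_cons, List.sum_cons]
  obtain ⟨p, hp⟩ := exists_min_walk (G := G) (ρ := fun a b => ℓ s(a, b))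
    (fun u v h => hℓ _ (G.mem_edgeSet.mpr h)) (hc x y)
  refine ⟨p, le_antisymm ?_ (pathDist_le hℓ p)⟩
  have : Nonempty (G.Walk x y) := ⟨p⟩
  refine le_ciInf fun q => ?_
  rw [← hw, ← hw]
  exact hp q

theorem three_walks [Finite V] (hc : G.Connected) (hℓ : ∀ e ∈ G.edgeSet, 0 < ℓ e) {x a b y : V}
    (A : G.Walk x a) (B : G.Walk a b) (C : G.Walk b y)
    (h : (A.edges.map ℓ).sum + (B.edges.map ℓ).sum + (C.edges.map ℓ).sum = pathDist G ℓ x y) :
    pathDist G ℓ a b ≤ pathDist G ℓ x b - pathDist G ℓ x a := by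
  have hd := pathDist_isMet hc hℓ
  have a1 := pathDist_le hℓ A
  have a2 := pathDist_le hℓ B
  have a3 := pathDist_le hℓ C
  have t1 := hd.tri x b y
  linarith

/-- the distance from the start is isometric along a shortest walk -/
theorem geodesic_line [Finite V] (hc : G.Connected) (hℓ : ∀ e ∈ G.edgeSet, 0 < ℓ e) {x y : V}
    (p : G.Walk x y) (hp : (p.edges.map ℓ).sum = pathDist G ℓ x y) {u v : V}
    (hu : u ∈ p.support) (hv : v ∈ p.support) :
    pathDist G ℓ u v ≤ |pathDist G ℓ x u - pathDist G ℓ x v| := by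
  classical
  have hd := pathDist_isMet hc hℓ
  have e1 : (p.edges.map ℓ).sum = ((p.takeUntil u hu).edges.map ℓ).sum +
      ((p.dropUntil u hu).edges.map ℓ).sum := by
    rw [← sum_edges_append, Walk.take_spec]
  have hv' : v ∈ (p.takeUntil u hu).support ∨ v ∈ (p.dropUntil u hu).support := by
    rw [← Walk.mem_support_append_iff, Walk.take_spec]
    exact hv
  rcases hv' with h | h
  · have e2 : ((p.takeUntil u hu).edges.map ℓ).sum =
        (((p.takeUntil u hu).takeUntil v h).edges.map ℓ).sum +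
        (((p.takeUntil u hu).dropUntil v h).edges.map ℓ).sum := by
      rw [← sum_edges_append, Walk.take_spec]
    have := three_walks hc hℓ ((p.takeUntil u hu).takeUntil v h)
      ((p.takeUntil u hu).dropUntil v h) (p.dropUntil u hu) (by linarith)
    rw [hd.symm u v]
    exact this.trans (le_abs_self _)
  · have e2 : ((p.dropUntil u hu).edges.map ℓ).sum =
        (((p.dropUntil u hu).takeUntil v h).edges.map ℓ).sum +
        (((p.dropUntil u hu).dropUntil v h).edges.map ℓ).sum := by
      rw [← sum_edges_append, Walk.take_spec]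
    have := three_walks hc hℓ (p.takeUntil u hu) ((p.dropUntil u hu).takeUntil v h)
      ((p.dropUntil u hu).dropUntil v h) (by linarith)
    rw [abs_sub_comm]
    exact this.trans (le_abs_self _)

/-- Removal of a shortest path. -/
theorem distortion_geodesic [Finite V] {C : ℝ} (hC : 0 < C) (hc : G.Connected)
    (h : ∀ ℓ : Sym2 V → ℝ, (∀ e ∈ G.edgeSet, 0 < ℓ e) → ∃ (x y : V) (p : G.Walk x y),
      (p.edges.map ℓ).sum = pathDist G ℓ x y ∧
      ∀ u ∉ p.support, DistortionLE (G.induce (compSet G {v | v ∈ p.support} u)) C) :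
    DistortionLE G (1 + 2 * (96 * C + 112)) := by
  intro ℓ hℓ
  have hd := pathDist_isMet hc hℓ
  obtain ⟨x, y, p, hp, hcomp⟩ := h ℓ hℓ
  refine embeds_of_line (X := {v | v ∈ p.support}) hC hc hℓ ⟨x, p.start_mem_support⟩
    (f := fun v => pathDist G ℓ x v) (fun u v => ?_) (fun u hu v hv => ?_) hcomp
  · have h1 := hd.tri x u v
    have h2 := hd.tri x v u
    rw [hd.symm v u] at h2
    rw [abs_le]; constructor <;> linarith
  · exact geodesic_line hc hℓ p hp hu hv

end geo

section emb

/-- Distortion bounds pass to connected subgraphs. -/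
theorem DistortionLE.emb {V W : Type} [Finite V] [Finite W] {G : SimpleGraph V}
    {H : SimpleGraph W} {C : ℝ} (f : W → V) (hf : Function.Injective f)
    (hadj : ∀ a b, H.Adj a b → G.Adj (f a) (f b)) (hG : G.Connected) (hH : H.Connected)
    (h : DistortionLE G C) : DistortionLE H C := by
  classical
  have : Fintype W := Fintype.ofFinite W
  intro ℓ' hℓ'
  have hd' := pathDist_isMet hH hℓ'
  let L : ℝ := 1 + ∑ x : W, ∑ y : W, pathDist H ℓ' x y
  have hL : ∀ x y : W, pathDist H ℓ' x y ≤ L := by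
    intro x y
    have h1 : pathDist H ℓ' x y ≤ ∑ y : W, pathDist H ℓ' x y :=
      Finset.single_le_sum (f := fun y => pathDist H ℓ' x y) (fun _ _ => hd'.nonneg _ _)
        (Finset.mem_univ y)
    have h2 : ∑ y : W, pathDist H ℓ' x y ≤ ∑ x : W, ∑ y : W, pathDist H ℓ' x y :=
      Finset.single_le_sum (f := fun x => ∑ y : W, pathDist H ℓ' x y)
        (fun _ _ => Finset.sum_nonneg fun _ _ => hd'.nonneg _ _) (Finset.mem_univ x)
    simp only [L]
    linarith
  have hL0 : 0 < L := by
    have : 0 ≤ ∑ x : W, ∑ y : W, pathDist H ℓ' x y :=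
      Finset.sum_nonneg fun _ _ => Finset.sum_nonneg fun _ _ => hd'.nonneg _ _
    simp only [L]
    linarith
  let ℓ : Sym2 V → ℝ := fun e =>
    if he : ∃ e' ∈ H.edgeSet, e'.map f = e then ℓ' he.choose else L
  have hinj : Function.Injective (Sym2.map f) := Sym2.map.injective hf
  have hℓH : ∀ e' ∈ H.edgeSet, ℓ (e'.map f) = ℓ' e' := by
    intro e' he'
    have hex : ∃ e'' ∈ H.edgeSet, e''.map f = e'.map f := ⟨e', he', rfl⟩
    have h1 : ℓ (e'.map f) = ℓ' hex.choose := dif_pos hex
    rw [h1, hinj hex.choose_spec.2]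
  have hℓ : ∀ e ∈ G.edgeSet, 0 < ℓ e := by
    intro e _
    by_cases he : ∃ e' ∈ H.edgeSet, e'.map f = e
    · have h1 : ℓ e = ℓ' he.choose := dif_pos he
      rw [h1]
      exact hℓ' _ he.choose_spec.1
    · have h1 : ℓ e = L := dif_neg he
      rw [h1]
      exact hL0
  have hd := pathDist_isMet hG hℓ
  have hup : ∀ x y, pathDist G ℓ (f x) (f y) ≤ pathDist H ℓ' x y := by
    intro x y
    have := pathDist_semi (G := H) (ℓ := ℓ') (ρ := fun x y => pathDist G ℓ (f x) (f y)) (K := 1)
      hH one_pos (fun x => hd.self _) (fun x y z => hd.tri _ _ _) (fun u v huv => by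
        have h1 := pathDist_adj hℓ (hadj u v huv)
        have h2 := hℓH s(u, v) (H.mem_edgeSet.mpr huv)
        rw [Sym2.map_mk] at h2
        rw [one_mul, ← h2]
        exact h1) x y
    rwa [one_mul] at this
  have hlow : ∀ x y, pathDist H ℓ' x y ≤ pathDist G ℓ (f x) (f y) := by
    intro x y
    let φ : V → ℝ := fun v => if hv : ∃ w, f w = v then pathDist H ℓ' x hv.choose else 0
    have hφf : ∀ w, φ (f w) = pathDist H ℓ' x w := by
      intro w
      have hex : ∃ w', f w' = f w := ⟨w, rfl⟩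
      have h1 : φ (f w) = pathDist H ℓ' x hex.choose := dif_pos hex
      rw [h1, hf hex.choose_spec]
    have hφ : ∀ v, 0 ≤ φ v ∧ φ v ≤ L := by
      intro v
      by_cases hv : ∃ w, f w = v
      · obtain ⟨w, rfl⟩ := hv
        rw [hφf]
        exact ⟨hd'.nonneg _ _, hL _ _⟩
      · have h1 : φ v = 0 := dif_neg hv
        rw [h1]
        exact ⟨le_rfl, hL0.le⟩
    have h1 := pathDist_gen (ℓ := ℓ) hG (f := φ) (fun a b hab => by
      by_cases he : ∃ e' ∈ H.edgeSet, e'.map f = s(a, b)
      · obtain ⟨e', he', hee⟩ := he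
        induction e' using Sym2.inductionOn with
        | hf u v =>
          have huv : H.Adj u v := H.mem_edgeSet.mp he'
          have h3 : ℓ s(a, b) = ℓ' s(u, v) := by rw [← hee]; exact hℓH _ he'
          have h4 := pathDist_adj hℓ' huv
          have h5 := hd'.tri x u v
          have h6 := hd'.tri x v u
          rw [hd'.symm v u] at h6
          have h7 : |pathDist H ℓ' x u - pathDist H ℓ' x v| ≤ ℓ' s(u, v) := by
            rw [abs_le]; constructor <;> linarith
          rw [h3]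
          rw [Sym2.map_mk, Sym2.eq_iff] at hee
          rcases hee with ⟨h8, h9⟩ | ⟨h8, h9⟩
          · rw [← h8, ← h9, hφf, hφf]
            exact h7
          · rw [← h8, ← h9, hφf, hφf, abs_sub_comm]
            exact h7
      · have h3 : ℓ s(a, b) = L := dif_neg he
        rw [h3, abs_le]
        constructor <;> linarith [(hφ a).1, (hφ a).2, (hφ b).1, (hφ b).2]) (f x) (f y)
    rw [hφf, hφf, hd'.self, zero_sub, abs_neg] at h1
    exact (le_abs_self _).trans h1
  obtain ⟨Ω, m, μ, g, hg⟩ := h ℓ hℓ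
  refine ⟨Ω, m, μ, fun w => g (f w), fun x y => ⟨?_, ?_⟩⟩
  · exact (hlow x y).trans (hg _ _).1
  · have h1 := (hg (f x) (f y)).2
    rwa [le_antisymm (hup x y) (hlow x y)] at h1

end emb

section path

variable {V : Type} {G : SimpleGraph V}

/-- path decomposition with bags of arbitrary size -/
structure PDec (G : SimpleGraph V) {n : ℕ} (B : Fin n → Set V) : Prop where
  cover : ∀ v, ∃ i, v ∈ B i
  edge : ∀ u v, G.Adj u v → ∃ i, u ∈ B i ∧ v ∈ B i
  conv : ∀ i j k, i ≤ j → j ≤ k → ∀ v, v ∈ B i → v ∈ B k → v ∈ B j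

variable {n : ℕ} {B : Fin n → Set V}

/-- a walk from one side of an adhesion set to the other one hits it -/
theorem PDec.hits (hB : PDec G B) {i j j0 : Fin n} (hij : i ≤ j) {u v : V}
    (p : G.Walk u v) (hv : v ∈ B j0) (hj : j ≤ j0)
    (hnext : ∀ m, m ≤ i ∨ j ≤ m) :
    ∀ i0, u ∈ B i0 → i0 ≤ i → ∃ z ∈ p.support, z ∈ B i ∩ B j := by
  induction p with
  | nil =>
    intro i0 hu hi
    exact ⟨_, by simp, hB.conv _ _ _ hi (hij.trans hj) _ hu hv,
      hB.conv _ _ _ (hi.trans hij) hj _ hu hv⟩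
  | @cons u a v h p ih =>
    intro i0 hu hi
    obtain ⟨m, hm1, hm2⟩ := hB.edge _ _ h
    rcases hnext m with hm | hm
    · obtain ⟨z, hz, hzB⟩ := ih hv m hm2 hm
      exact ⟨z, by rw [Walk.support_cons]; exact List.mem_cons_of_mem _ hz, hzB⟩
    · exact ⟨u, by simp, hB.conv _ _ _ hi (hij.trans hm) _ hu hm1,
        hB.conv _ _ _ (hi.trans hij) hm _ hu hm1⟩

theorem PDec.comap (hB : PDec G B) (A : Set V) :
    PDec (G.induce A) (fun i => {v : A | v.1 ∈ B i}) where
  cover v := hB.cover v.1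
  edge u v h := hB.edge u.1 v.1 h
  conv i j k hij hjk v := hB.conv i j k hij hjk v.1

/-- if all adhesion sets are empty then one bag is everything -/
theorem PDec.one (hB : PDec G B) (hc : G.Connected)
    (h0 : ∀ i j : Fin n, j.val = i.val + 1 → B i ∩ B j = ∅) : ∃ i, B i = Set.univ := by
  obtain ⟨x⟩ := hc.nonempty
  obtain ⟨i, hi⟩ := hB.cover x
  have hne : ∀ (u : V) (a b : Fin n), u ∈ B a → u ∈ B b → ¬ a < b := by
    intro u a b ha hb hab
    have hlt : a.val + 1 < n := lt_of_le_of_lt hab b.2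
    have h1 : u ∈ B ⟨a.val + 1, hlt⟩ :=
      hB.conv a ⟨a.val + 1, hlt⟩ b (Fin.le_def.mpr (Nat.le_succ _)) (Fin.le_def.mpr hab) u ha hb
    have h2 : u ∈ B a ∩ B ⟨a.val + 1, hlt⟩ := ⟨ha, h1⟩
    rw [h0 a ⟨a.val + 1, hlt⟩ rfl] at h2
    exact h2
  refine ⟨i, Set.eq_univ_of_forall fun y => ?_⟩
  obtain ⟨p⟩ := hc x y
  induction p with
  | nil => exact hi
  | @cons u a v h p ih =>
    obtain ⟨m, hm1, hm2⟩ := hB.edge _ _ h
    have : m = i := le_antisymm (not_lt.mp (hne u i m hi hm1)) (not_lt.mp (hne u m i hm1 hi))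
    subst this
    exact ih hm2

theorem reachOff_map {A : Set V} {S : Set V} {u v : A}
    (h : ReachOff (G.induce A) {z : A | z.1 ∈ S}ᶜ u v) : ReachOff G Sᶜ u.1 v.1 := by
  obtain ⟨p, hp⟩ := h
  refine ⟨p.map (⟨Subtype.val, fun h => h⟩ : G.induce A →g G), fun a ha => ?_⟩
  rw [Walk.support_map, List.mem_map] at ha
  obtain ⟨b, hb, rfl⟩ := ha
  exact hp b hb

/-- constant of the path-sum theorem -/
noncomputable def psK (p : ℕ) (C : ℝ) : ℝ := Nat.rec C (fun _ K => 1 + 2 * (96 * K + 112)) p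

theorem psK_zero (C : ℝ) : psK 0 C = C := rfl

theorem psK_succ (p : ℕ) (C : ℝ) : psK (p + 1) C = 1 + 2 * (96 * psK p C + 112) := rfl

theorem le_psK (p : ℕ) {C : ℝ} (hC : 1 ≤ C) : C ≤ psK p C := by
  induction p with
  | zero => exact le_rfl
  | succ p ih => rw [psK_succ]; linarith

/-- Path sums: path decompositions with adhesion at most `p` and bags with components of bounded
distortion. -/
theorem distortion_pathSum {C : ℝ} (hC : 1 ≤ C) (p : ℕ) : ∀ (V : Type) [Finite V]
    (G : SimpleGraph V), G.Connected → ∀ (n : ℕ) (B : Fin n → Set V), PDec G B →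
    (∀ i j : Fin n, j.val = i.val + 1 → (B i ∩ B j).ncard ≤ p) →
    (∀ i, ∀ u ∈ B i, DistortionLE (G.induce (compSet G (B i)ᶜ u)) C) →
    DistortionLE G (psK p C) := by
  classical
  induction p with
  | zero =>
    intro V _ G hc n B hB hw hD
    obtain ⟨i, hi⟩ := hB.one hc fun i j hij => by
      have := hw i j hij
      rw [Nat.le_zero, Set.ncard_eq_zero (Set.toFinite _)] at this
      exact this
    obtain ⟨x⟩ := hc.nonempty
    have hx : x ∈ B i := by rw [hi]; trivial
    have hmem : ∀ v, v ∈ compSet G (B i)ᶜ x := by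
      intro v
      obtain ⟨q⟩ := hc x v
      exact ⟨q, fun a _ => by rw [hi]; simp⟩
    exact (hD i x hx).emb (fun v => ⟨v, hmem v⟩) (fun a b h => congrArg Subtype.val h)
      (fun a b h => h) (comp_connected (by simpa using hx)) hc
  | succ p ih =>
    intro V _ G hc n B hB hw hD
    have hK1 : 1 ≤ psK p C := hC.trans (le_psK p hC)
    refine distortion_geodesic (one_pos.trans_le hK1) hc fun ℓ hℓ => ?_
    obtain ⟨v0⟩ := hc.nonempty
    obtain ⟨m0, hm0⟩ := hB.cover v0
    obtain ⟨⟨⟨x, i0⟩, hx⟩, hxmin⟩ : ∃ a : {a : V × Fin n // a.1 ∈ B a.2},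
        ∀ b : {a : V × Fin n // a.1 ∈ B a.2}, a.1.2 ≤ b.1.2 := by
      have : Nonempty {a : V × Fin n // a.1 ∈ B a.2} := ⟨⟨(v0, m0), hm0⟩⟩
      exact Finite.exists_min fun a : {a : V × Fin n // a.1 ∈ B a.2} => a.1.2
    obtain ⟨⟨⟨y, j0⟩, hy⟩, hymax⟩ : ∃ a : {a : V × Fin n // a.1 ∈ B a.2},
        ∀ b : {a : V × Fin n // a.1 ∈ B a.2}, b.1.2 ≤ a.1.2 := by
      have : Nonempty {a : V × Fin n // a.1 ∈ B a.2} := ⟨⟨(v0, m0), hm0⟩⟩
      exact Finite.exists_max fun a : {a : V × Fin n // a.1 ∈ B a.2} => a.1.2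
    obtain ⟨q, hq⟩ := exists_geodesic hc hℓ x y
    refine ⟨x, y, q, hq, fun u hu => ?_⟩
    set X : Set V := {v | v ∈ q.support} with hX
    have huX : u ∉ X := hu
    set A := compSet G X u with hA
    have hAc : (G.induce A).Connected := comp_connected huX
    refine ih A (G.induce A) hAc n _ (hB.comap A) (fun i j hij => ?_) (fun i a ha => ?_)
    · by_cases hne : (B i ∩ B j).Nonempty
      · obtain ⟨z, hzi, hzj⟩ := hne
        have hle : i ≤ j := Fin.le_def.mpr (by omega)
        have h1 : i0 ≤ i := hxmin ⟨(z, i), hzi⟩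
        have h2 : j ≤ j0 := hymax ⟨(z, j), hzj⟩
        obtain ⟨t, ht, htB⟩ := hB.hits hle q hy h2
          (fun m => by
            rcases Nat.lt_or_ge i.val m.val with h | h
            · exact Or.inr (Fin.le_def.mpr (by omega))
            · exact Or.inl (Fin.le_def.mpr h)) i0 hx h1
        have hsub : Subtype.val '' ({v : A | v.1 ∈ B i} ∩ {v : A | v.1 ∈ B j}) ⊆
            (B i ∩ B j) \ {t} := by
          rintro _ ⟨v, ⟨hv1, hv2⟩, rfl⟩
          refine ⟨⟨hv1, hv2⟩, fun h => ?_⟩
          have h3 : v.1 = t := h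
          exact ReachOff.right (show ReachOff G X u v.1 from v.2) (by rw [h3]; exact ht)
        have h4 := Set.ncard_le_ncard hsub (Set.toFinite _)
        rw [Set.ncard_image_of_injective _ Subtype.val_injective] at h4
        have h5 := Set.ncard_sdiff_singleton_add_one htB (Set.toFinite _)
        have h6 := hw i j hij
        omega
      · rw [Set.not_nonempty_iff_eq_empty] at hne
        have : ({v : A | v.1 ∈ B i} ∩ {v : A | v.1 ∈ B j}) = ∅ := by
          ext v
          constructor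
          · rintro ⟨h1, h2⟩
            have : v.1 ∈ B i ∩ B j := ⟨h1, h2⟩
            rw [hne] at this
            exact this
          · intro h; exact h.elim
        rw [this, Set.ncard_empty]
        exact Nat.zero_le _
    · have ha' : a.1 ∈ B i := ha
      refine (hD i a.1 ha').emb (fun v => ⟨v.1.1, reachOff_map v.2⟩)
        (fun v w h => Subtype.ext (Subtype.ext
          (congrArg (fun z : compSet G (B i)ᶜ a.1 => z.1) h))) (fun v w h => h)
        (comp_connected (by simpa using ha')) (comp_connected (by simpa using ha))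

end path

end Vale.Agent.P235
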